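import Vale.Agent.P110.Exist.Basic

/-!
Shared definitions for a rank-one transformation with simple Lebesgue spectrum.
-/

open Real Finset MeasureTheory
open Vale.Agent.P110.Exist (e dot)

namespace Vale.Agent.P130.Rank

/-- The exponential sum of a graph `j ↦ f j`. -/
noncomputable def graphSum (m : ℕ) (f : ℕ → ℕ) (t τ : ℝ) : ℂ :=
  ∑ j ∈ range m, e (t * (f j : ℝ) + τ * (j : ℝ))

/-- Cutting and stacking data: heights, numbers of columns, spacers above each column. -/
structure Stages where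
  h : ℕ → ℕ
  m : ℕ → ℕ
  s : ℕ → ℕ → ℕ
  two_le_h : 2 ≤ h 0
  two_le_m : ∀ n, 2 ≤ m n
  h_succ : ∀ n, h (n + 1) = m n * h n + ∑ j ∈ range (m n), s n j
  summable : Summable fun n => ((∑ j ∈ range (m n), s n j : ℕ) : ℝ) / (m n * h n : ℕ)

namespace Stages

/-- Position of column `j` of stage `n` inside the tower of stage `n + 1`. -/
def off (S : Stages) (n j : ℕ) : ℕ := j * S.h n + ∑ i ∈ range j, S.s n i

/-- The polynomial of stage `n`. -/
noncomputable def pol (S : Stages) (n : ℕ) (t : ℝ) : ℂ :=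
  (∑ j ∈ range (S.m n), e (t * (S.off n j : ℝ))) / (√(S.m n) : ℂ)

/-- `|1 - e(t)|²` times `k` consecutive squared polynomials starting with stage `n`. -/
noncomputable def dens (S : Stages) (n k : ℕ) (t : ℝ) : ℝ :=
  ‖1 - e t‖ ^ 2 * ∏ i ∈ range k, ‖S.pol (n + i) t‖ ^ 2

/-- A function on the levels of stage `n`, as one on the levels of stage `n + 1`. -/
noncomputable def lift (S : Stages) (n : ℕ) (Q : Fin (S.h n) → ℂ) : Fin (S.h (n + 1)) → ℂ :=
  fun p => (∑ j ∈ range (S.m n), ∑ a : Fin (S.h n), if S.off n j + (a : ℕ) = (p : ℕ) then Q a else 0) /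
    (√(S.m n) : ℂ)

end Stages

/-- Move a function on levels one level up. -/
def shift {h : ℕ} (Q : Fin h → ℂ) : Fin h → ℂ :=
  fun p => if hp : (p : ℕ) = 0 then 0 else Q ⟨(p : ℕ) - 1, by omega⟩

/-- The unit cube. -/
def cube (D : ℕ) : Set (Fin D → ℝ) := Set.pi Set.univ fun _ => Set.Ico 0 1

/-- Inner product of an integer and a real vector. -/
def rdot {D : ℕ} (n : Fin D → ℤ) (θ : Fin D → ℝ) : ℝ := ∑ i, (n i : ℝ) * θ i

/-- `n` or `-n`. -/
def sgnVec {D : ℕ} (p : (Fin D → ℤ) × Bool) : Fin D → ℤ := if p.2 then p.1 else -p.1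

end Vale.Agent.P130.Rank
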