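import Vale.Agent.P130.Rank.GoodStages.Stage
import Vale.Agent.P130.RieszLimit

/-!
Stage data whose products converge to positive densities, from flat graphs.
-/

open Real Finset MeasureTheory Filter
open Vale.Agent.P110.Exist (e e_add e_zero norm_e continuous_e e_neg e_int e_add_int)

namespace Vale.Agent.P130.Rank

namespace GS

/-- The tolerance of stage `N`. -/
noncomputable def tol (N : ℕ) : ℝ := (1 / 4) ^ (N + 2)

lemma tol_pos (N : ℕ) : 0 < tol N := by unfold tol; positivity

lemma tol_le (N : ℕ) : tol N ≤ 1 / 16 := by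
  have h : ((1 : ℝ) / 4) ^ (N + 2) ≤ (1 / 4) ^ 2 :=
    pow_le_pow_of_le_one (by norm_num) (by norm_num) (by omega)
  unfold tol
  linarith [h, show ((1 : ℝ) / 4) ^ 2 = 1 / 16 by norm_num]

lemma sqrt_tol (N : ℕ) : √(tol N) = (1 / 2) ^ (N + 2) := by
  rw [tol, show ((1 : ℝ) / 4) ^ (N + 2) = ((1 / 2) ^ (N + 2)) ^ 2 by
    rw [← pow_mul, mul_comm, pow_mul]; norm_num, Real.sqrt_sq (by positivity)]

/-- The property of stage data used below: one stage nearly preserves every weight of small
degree. -/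
def Good (S : Stages) : Prop :=
  ∀ N dV (V : ℝ → ℝ), Sep dV (fun t _ => (V t : ℂ)) → (∀ t, 0 ≤ V t) → dV ≤ S.h N →
    (∫ t in (0 : ℝ)..1, V t * ‖S.pol N t‖ ^ 2) = (∫ t in (0 : ℝ)..1, V t) ∧
    (∫ t in (0 : ℝ)..1, V t * (‖S.pol N t‖ - 1) ^ 2) ≤
      8 * tol N * (∫ t in (0 : ℝ)..1, V t) +
        4 * ((∫ t in (0 : ℝ)..2 * tol N, V t) + ∫ t in (1 - 2 * tol N)..1, V t)

lemma exists_good (hF : FlatGraphSpec) : ∃ S : Stages, Good S := by
  choose R hR1 hR using fun N => hF (tol N) (tol N) (tol_pos N) (tol_pos N)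
  set ρ : ℕ → ℝ := fun N => tol N / (2 * π * R N + 1)
  have hρ : ∀ N, 0 < ρ N := fun N => div_pos (tol_pos N) (by positivity)
  set nn : ℕ → ℕ := fun N => ⌈1 / (4 * ρ N ^ 2 * tol N)⌉₊ + 1
  set z : ℕ → ℕ := fun N => nn N + 2 * R N
  choose m hm f hf hflat using fun N =>
    hR N (max 2 (2 ^ (N + 1) * (z (N + 1) + 2 * R (N + 1))))
  set s : ℕ → ℕ → ℕ := fun N j => z N + R N + f N (j + 1) - f N j with hs
  set h : ℕ → ℕ := fun N => Nat.rec (max 2 (z 0 + 2 * R 0))
    (fun k hk => m k * hk + ∑ j ∈ range (m k), s k j) N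
  have hsucc : ∀ N, h (N + 1) = m N * h N + ∑ j ∈ range (m N), s N j := fun N => rfl
  have h2m : ∀ N, 2 ≤ m N := fun N => (le_max_left _ _).trans (hm N)
  have hpos : ∀ N, 1 ≤ h N := by
    intro N
    induction N with
    | zero => exact le_trans one_le_two (le_max_left _ _)
    | succ N ih => rw [hsucc]; have := h2m N; exact le_trans (by nlinarith) (Nat.le_add_right _ _)
  have hbig : ∀ N, 2 ^ N * (z N + 2 * R N) ≤ h N := by
    intro N
    cases N with
    | zero => rw [pow_zero, one_mul]; exact le_max_right _ _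
    | succ N =>
      rw [hsucc]
      refine le_trans ((le_max_right _ _).trans (hm N)) ?_
      exact le_trans (Nat.le_mul_of_pos_right _ (hpos N)) (Nat.le_add_right _ _)
  have hsum : Summable fun N => ((∑ j ∈ range (m N), s N j : ℕ) : ℝ) / (m N * h N : ℕ) := by
    refine (summable_geometric_two).of_nonneg_of_le (fun N => by positivity) fun N => ?_
    have h1 : ∑ j ∈ range (m N), s N j ≤ m N * (z N + 2 * R N) := by
      refine (sum_le_card_nsmul _ _ (z N + 2 * R N) fun j _ => ?_).trans_eq (by simp)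
      have := hf N (j + 1); have := hf N j
      simp only [hs]; omega
    have h2 : (2 : ℝ) ^ N * ((∑ j ∈ range (m N), s N j : ℕ) : ℝ) ≤ (m N * h N : ℕ) := by
      calc _ = ((2 ^ N * ∑ j ∈ range (m N), s N j : ℕ) : ℝ) := by push_cast; ring
        _ ≤ _ := by
          refine Nat.cast_le.2 ((Nat.mul_le_mul_left _ h1).trans ?_)
          rw [mul_left_comm]
          exact Nat.mul_le_mul_left _ (hbig N)
    have hpp : (0 : ℝ) < (m N * h N : ℕ) :=
      Nat.cast_pos.2 (Nat.mul_pos (by have := h2m N; omega) (hpos N))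
    rw [one_div_pow, div_le_div_iff₀ hpp (by positivity), one_mul, mul_comm]
    exact h2
  refine ⟨⟨h, m, s, le_max_left _ _, h2m, hsucc, hsum⟩, fun N dV V hV hV0 hdV => ?_⟩
  set S : Stages := ⟨h, m, s, le_max_left _ _, h2m, hsucc, hsum⟩
  have hoff : ∀ j, S.off N j + f N 0 = j * (h N + z N + R N) + f N j := by
    intro j
    induction j with
    | zero => simp [Stages.off]
    | succ j ih =>
      have h1 : S.off N (j + 1) = S.off N j + h N + s N j := by
        simp only [Stages.off, sum_range_succ, S, add_mul, one_mul]; omega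
      rw [h1, add_mul, one_mul]
      have := hf N j
      simp only [hs]
      omega
  have ha : ∀ t : ℝ, ‖S.pol N t‖ =
      ‖graphSum (m N) (f N) t (((h N + z N + R N : ℕ) : ℝ) * t)‖ / √(m N) := by
    intro t
    have hg : graphSum (m N) (f N) t (((h N + z N + R N : ℕ) : ℝ) * t) =
        e (t * (f N 0 : ℝ)) * ∑ j ∈ range (m N), e (t * (S.off N j : ℝ)) := by
      rw [mul_sum, graphSum]
      refine sum_congr rfl fun j _ => ?_
      rw [← e_add]
      congr 1
      have h1 : ((S.off N j + f N 0 : ℕ) : ℝ) = ((j * (h N + z N + R N) + f N j : ℕ) : ℝ) :=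
        congrArg Nat.cast (hoff j)
      push_cast at h1 ⊢
      linear_combination (-t) * h1
    rw [hg, norm_mul, norm_e, one_mul, Stages.pol, norm_div, Complex.norm_real,
      Real.norm_of_nonneg (Real.sqrt_nonneg _)]
  simp only [ha]
  refine weighted (n := nn N) (R := R N) (ρ := ρ N) (by have := h2m N; omega) (Nat.succ_pos _) (hf N)
    (hρ N) ?_ ?_ ?_ ?_ (hflat N) hV hV0 ?_
  · refine div_le_self (tol_pos N).le ?_
    nlinarith [pi_pos, (Nat.cast_nonneg (R N) : (0 : ℝ) ≤ R N)]
  · linarith [tol_le N]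
  · rw [show 2 * π * (R N : ℝ) * ρ N = tol N * (2 * π * R N / (2 * π * R N + 1)) by
      simp only [ρ]; ring]
    refine mul_le_of_le_one_right (tol_pos N).le ((div_le_one (by positivity)).2 (by linarith))
  · have h1 : 1 / (4 * ρ N ^ 2 * tol N) ≤ (nn N : ℝ) := by
      simp only [nn, Nat.cast_add, Nat.cast_one]
      linarith [Nat.le_ceil (1 / (4 * ρ N ^ 2 * tol N))]
    have := hρ N
    have := tol_pos N
    have hn : (0 : ℝ) < nn N := Nat.cast_pos.2 (Nat.succ_pos _)
    rw [div_le_iff₀ (by positivity)] at h1 ⊢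
    linarith
  · have := hR1 N
    change dV ≤ h N at hdV
    show _ < h N + (nn N + 2 * R N) + R N
    omega

section

variable {S : Stages} (hS : Good S)
include hS

lemma integral_prd (n k : ℕ) : ∫ t in (0 : ℝ)..1, prd S n k t = 1 := by
  induction k with
  | zero => simp [prd]
  | succ k ih =>
    have h := (hS (n + k) _ _ (sep_prd S n k) (prd_nonneg S n k) (Nat.sub_le _ _)).1
    rw [ih] at h
    simpa [prd, prod_range_succ] using h

lemma dens_edge (n k : ℕ) {a b c : ℝ} (ha : 0 ≤ a) (hab : a ≤ b) (hb : b ≤ 1)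
    (hc : ∀ t ∈ Set.Icc a b, ‖1 - e t‖ ≤ c) : ∫ t in a..b, S.dens n k t ≤ c ^ 2 := by
  refine (intervalIntegral.integral_mono_on hab ((continuous_dens S n k).intervalIntegrable _ _)
    (((continuous_prd S n k).const_mul (c ^ 2)).intervalIntegrable _ _) fun t ht =>
      mul_le_mul_of_nonneg_right (pow_le_pow_left₀ (norm_nonneg _) (hc t ht) 2)
        (prd_nonneg S n k t)).trans ?_
  refine (intervalIntegral.integral_mono_interval ha hab hb (ae_of_all _ fun t =>
    mul_nonneg (sq_nonneg c) (prd_nonneg S n k t))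
    (((continuous_prd S n k).const_mul (c ^ 2)).intervalIntegrable _ _)).trans_eq ?_
  rw [intervalIntegral.integral_const_mul, integral_prd hS, mul_one]

lemma dens_step (n k : ℕ) :
    ∫ t in (0 : ℝ)..1, S.dens n k t * (‖S.pol (n + k) t‖ - 1) ^ 2 ≤
      (32 + 128 * π ^ 2) * tol (n + k) := by
  refine (hS (n + k) _ _ (sep_dens S n k) (dens_nonneg S n k) le_rfl).2.trans ?_
  have h4 : ∫ t in (0 : ℝ)..1, S.dens n k t ≤ 4 := by
    have := dens_edge hS n k (c := 2) le_rfl zero_le_one le_rfl fun t _ => by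
      have := norm_sub_le (1 : ℂ) (e t)
      rw [norm_one, norm_e] at this
      linarith
    linarith
  set ε := tol (n + k)
  have hε := tol_pos (n + k)
  have hε' := tol_le (n + k)
  have hl := dens_edge hS n k (a := 0) (b := 2 * ε) (c := 4 * π * ε) le_rfl (by linarith)
    (by linarith) fun t ht => by
      rw [norm_sub_rev]
      refine (norm_e_sub_one_le t).trans ?_
      rw [abs_of_nonneg ht.1]
      nlinarith [pi_pos, ht.2]
  have hr := dens_edge hS n k (a := 1 - 2 * ε) (b := 1) (c := 4 * π * ε) (by linarith) (by linarith)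
    le_rfl fun t ht => by
      rw [show (1 : ℂ) = e 1 by exact_mod_cast (e_int 1).symm]
      refine (norm_e_sub_e 1 t).trans ?_
      rw [abs_of_nonneg (by linarith [ht.2])]
      nlinarith [pi_pos, ht.1]
  have h5 : ε ^ 2 ≤ ε := by nlinarith
  nlinarith [mul_le_mul_of_nonneg_left h5 (sq_nonneg π), mul_le_mul_of_nonneg_left h4 hε.le]

lemma first_moment (N : ℕ) :
    ∫ t in (0 : ℝ)..1, |‖S.pol N t‖ - 1| ≤ 2 * (1 / 2) ^ N := by
  have h2 : ∫ t in (0 : ℝ)..1, (‖S.pol N t‖ - 1) ^ 2 ≤ 24 * tol N := by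
    have h := (hS N 0 (fun _ => 1) ((sep_const 1).congr fun t _ => by simp)
      (fun _ => zero_le_one) (Nat.zero_le _)).2
    simp only [one_mul, intervalIntegral.integral_const, sub_zero, smul_eq_mul, mul_one] at h
    linarith
  have hc : Continuous fun t => ‖S.pol N t‖ - 1 := (continuous_pol S N).norm.sub continuous_const
  set s : ℝ := (1 / 2) ^ N
  have hs : 0 < s := by positivity
  have hi := ((hc.fun_pow 2).div_const (2 * s)).intervalIntegrable (μ := volume) 0 1
  refine le_trans (intervalIntegral.integral_mono_on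
    (g := fun t => (‖S.pol N t‖ - 1) ^ 2 / (2 * s) + s / 2) zero_le_one
    (hc.abs.intervalIntegrable 0 1) (hi.add intervalIntegrable_const) fun t _ => ?_) ?_
  · rw [div_add_div _ _ (by positivity) two_ne_zero, le_div_iff₀ (by positivity)]
    nlinarith [sq_nonneg (|‖S.pol N t‖ - 1| - s), sq_abs (‖S.pol N t‖ - 1)]
  · rw [intervalIntegral.integral_add hi intervalIntegrable_const, intervalIntegral.integral_div,
      intervalIntegral.integral_const]
    simp only [sub_zero, one_smul]
    rw [div_add_div _ _ (by positivity) two_ne_zero, div_le_iff₀ (by positivity)]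
    have ht : tol N = s ^ 2 / 16 := by
      simp only [tol, s, ← pow_mul, pow_add]
      rw [mul_comm N 2, pow_mul]
      norm_num
      ring
    rw [ht] at h2
    nlinarith

end

lemma sqrt_sub_sq_le {x y : ℝ} (hx : 0 ≤ x) (hy : 0 ≤ y) : (√x - √y) ^ 2 ≤ |x - y| := by
  have h1 := Real.sq_sqrt hx
  have h2 := Real.sq_sqrt hy
  rcases le_total (√x) (√y) with h | h
  · refine le_trans ?_ (neg_le_abs _)
    nlinarith [Real.sqrt_nonneg x, mul_le_mul_of_nonneg_left h (Real.sqrt_nonneg x)]
  · refine le_trans ?_ (le_abs_self _)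
    nlinarith [Real.sqrt_nonneg y, mul_le_mul_of_nonneg_left h (Real.sqrt_nonneg y)]

end GS

open GS in
/-- **D2.** Flat graphs give good stages. -/
theorem goodStages : FlatGraphSpec → GoodStagesSpec := by
  intro hF
  obtain ⟨S, hS⟩ := exists_good hF
  refine ⟨S, fun n => ?_⟩
  set μ : Measure ℝ := volume.restrict (Set.Ioc (0 : ℝ) 1)
  have hμ : ∀ g : ℝ → ℝ, ∫ t, g t ∂μ = ∫ t in (0 : ℝ)..1, g t := fun g =>
    (intervalIntegral.integral_of_le zero_le_one).symm
  have hpc : ∀ k, Continuous fun t => ‖S.pol k t‖ := fun k => (continuous_pol S k).norm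
  have hsum : Summable fun k => ∫ t, |‖S.pol (n + k) t‖ - 1| ∂μ := by
    refine (summable_geometric_two.mul_left (2 * (1 / 2 : ℝ) ^ n)).of_nonneg_of_le
      (fun k => integral_nonneg fun _ => abs_nonneg _) fun k => ?_
    rw [hμ]
    refine (first_moment hS (n + k)).trans_eq ?_
    rw [pow_add]; ring
  have hroot : Summable fun k => √(∫ t, S.dens n k t * (‖S.pol (n + k) t‖ - 1) ^ 2 ∂μ) := by
    refine (summable_geometric_two.mul_left (√(32 + 128 * π ^ 2) * (1 / 2 : ℝ) ^ (n + 2))).of_nonneg_of_le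
      (fun k => Real.sqrt_nonneg _) fun k => ?_
    rw [hμ]
    refine (Real.sqrt_le_sqrt (dens_step hS n k)).trans_eq ?_
    rw [Real.sqrt_mul (by positivity), sqrt_tol, show n + k + 2 = n + 2 + k by omega, pow_add]
    ring
  obtain ⟨w, hwi, hwpos, hlim⟩ := RieszLimit.exists_limit (μ := μ)
    (a := fun k t => ‖S.pol (n + k) t‖) (D := S.dens n)
    (fun k => (hpc _).aemeasurable)
    (fun k => (pol_ne_zero S (n + k)).mono fun t ht => norm_ne_zero_iff.2 ht)
    (fun k => ((hpc (n + k)).sub continuous_const).integrableOn_Ioc) hsum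
    (fun k => (continuous_dens S n k).integrableOn_Ioc) (dens_zero_pos S n)
    (fun k => ae_of_all _ fun t => by simp only [Stages.dens, prod_range_succ, mul_assoc]) hroot
  have hwm := hwi.aemeasurable
  have hw : w =ᵐ[μ] hwm.mk w := hwm.ae_eq_mk
  refine ⟨fun t => √(hwm.mk w t), hwm.measurable_mk.sqrt, fun t => Real.sqrt_nonneg _, ?_, ?_, ?_⟩
  · filter_upwards [hwpos, hw] with t h1 h2
    exact Real.sqrt_pos.2 (h2 ▸ h1)
  · refine Integrable.congr hwi ?_
    filter_upwards [hwpos, hw] with t h1 h2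
    rw [← h2, Real.sq_sqrt h1.le]
  · refine squeeze_zero (fun k => intervalIntegral.integral_nonneg zero_le_one
      fun t _ => sq_nonneg _) (fun k => ?_) hlim
    rw [← hμ]
    refine integral_mono_of_nonneg (ae_of_all _ fun t => sq_nonneg _)
      (((continuous_dens S n k).integrableOn_Ioc).sub hwi).abs ?_
    filter_upwards [hwpos, hw] with t h1 h2
    rw [← h2]
    exact sqrt_sub_sq_le (dens_nonneg S n k t) h1.le

end Vale.Agent.P130.Rank
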