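import Vale.Agent.P130.Rank.Defs
import Vale.Agent.P110.Exist.Spec

/-!
Statements of the modules (propositions only).
-/

open Real Finset MeasureTheory Filter
open Vale.Agent.P110.Exist (e dot)

namespace Vale.Agent.P130.Rank

/-- K. Graphs of bounded height with flat exponential sums, uniformly away from `t ∈ ℤ`. -/
def FlatGraphSpec : Prop :=
  ∀ δ η : ℝ, 0 < δ → 0 < η → ∃ R : ℕ, 1 ≤ R ∧ ∀ m0 : ℕ, ∃ m ≥ m0, ∃ f : ℕ → ℕ,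
    (∀ j, f j < R) ∧ ∀ t ∈ Set.Icc η (1 - η),
      (1 - δ) * √m ≤ ∫ τ in (0 : ℝ)..1, ‖graphSum m f t τ‖

/-- D2. Stage data whose products converge to positive densities. -/
def GoodStagesSpec : Prop :=
  ∃ S : Stages, ∀ n, ∃ L : ℝ → ℝ, Measurable L ∧ (∀ t, 0 ≤ L t) ∧
    (∀ᵐ t ∂(volume.restrict (Set.Ioc (0 : ℝ) 1)), 0 < L t) ∧
    IntegrableOn (fun t => L t ^ 2) (Set.Ioc 0 1) ∧
    Tendsto (fun k => ∫ t in (0 : ℝ)..1, (√(S.dens n k t) - L t) ^ 2) atTop (nhds 0)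

/-- D1. The transformation of given stage data, through its level functions. -/
def RankOneSpec : Prop :=
  ∀ S : Stages, ∃ (μ : Measure ℝ) (T : ℝ ≃ᵐ ℝ)
    (ψ : ∀ n, (Fin (S.h n) → ℂ) →ₗ[ℂ] Lp ℂ 2 μ),
    IsProbabilityMeasure μ ∧ NullSingletonClass μ ∧ MeasurePreserving T μ μ ∧
    (∀ n Q, ‖ψ n Q‖ ^ 2 = ∑ a, ‖Q a‖ ^ 2) ∧
    (∀ n, ∃ c : ℂ, c ≠ 0 ∧ ∀ Q, ∫ x, ψ n Q x ∂μ = c * ∑ a, Q a) ∧
    (∀ n Q, ψ (n + 1) (S.lift n Q) = ψ n Q) ∧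
    (∀ n (Q : Fin (S.h n) → ℂ), (∀ a : Fin (S.h n), (a : ℕ) + 1 = S.h n → Q a = 0) →
      (fun x => ψ n (shift Q) x) =ᵐ[μ] fun x => ψ n Q (T.symm x)) ∧
    ∀ g : Lp ℂ 2 μ, ∀ ε : ℝ, 0 < ε → ∃ n Q, ‖ψ n Q - g‖ < ε

/-- The final statement. -/
def SimpleLebesgueSpec : Prop :=
  ∃ (μ : Measure ℝ) (T : ℝ ≃ᵐ ℝ) (f : ℝ → ℂ),
    IsProbabilityMeasure μ ∧ NullSingletonClass μ ∧ MeasurePreserving T μ μ ∧
    MemLp f 2 μ ∧ ∫ x, f x ∂μ = 0 ∧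
    (∀ k : ℤ, ∫ x, f ((T.toEquiv ^ k) x) * (starRingEnd ℂ) (f x) ∂μ = if k = 0 then 1 else 0) ∧
    ∀ g : ℝ → ℂ, MemLp g 2 μ → ∫ x, g x ∂μ = 0 →
      (∀ k : ℤ, ∫ x, g x * (starRingEnd ℂ) (f ((T.toEquiv ^ k) x)) ∂μ = 0) → g =ᵐ[μ] 0

/-- K1. A waveform `G` of height `R` whose harmonics carry, at every point of a net in
`[η, 1/2]`, weights `ρ` independent of the point. -/
def GraphWaveSpec : Prop :=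
  ∀ δ η : ℝ, 0 < δ → 0 < η → η < 1 / 2 → ∃ R : ℕ, 1 ≤ R ∧
    ∀ (L : ℕ) (T : Fin (L + 1) → ℝ), StrictMono T → (∀ l, T l ∈ Set.Icc η (1 / 2)) →
      T (Fin.last L) = 1 / 2 →
    ∃ (D : ℕ) (G : (Fin D → ℝ) → ℕ) (P : Finset (Fin D → ℤ)) (v : Fin D → ℤ)
      (ρ : (Fin D → ℤ) → ℝ) (act : Fin (L + 1) → Finset ((Fin D → ℤ) × Bool))
      (c : Fin (L + 1) → (Fin D → ℤ) × Bool → ℂ),
      2 ≤ D ∧ Measurable G ∧ (∀ θ, G θ < R) ∧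
      (∀ θ (z : Fin D → ℤ), G (fun i => θ i + (z i : ℝ)) = G θ) ∧
      P.Nonempty ∧ (∀ n ∈ P, ∃ y, dot n y = 1) ∧ (∀ n ∈ P, -n ∉ P) ∧ (∀ n ∈ P, 0 < dot n v) ∧
      (∀ n ∈ P, 0 < ρ n) ∧ (∀ l, ∀ p ∈ act l, p.1 ∈ P) ∧
      (∀ p : (Fin D → ℤ) × Bool, ({l | p ∈ act l} : Set (Fin (L + 1))).OrdConnected) ∧
      (∀ n b, (n, b) ∈ act (Fin.last L) → (n, !b) ∈ act (Fin.last L)) ∧
      (∀ n b l l', (n, b) ∈ act l → (n, !b) ∈ act l' →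
        (n, b) ∈ act (Fin.last L) ∧ (n, !b) ∈ act (Fin.last L)) ∧
      (∀ l, ∀ p ∈ act l, ‖c l p‖ ^ 2 = ρ p.1) ∧
      (∀ l, 1 - δ ≤ ∑ p ∈ act l, ρ p.1 ∧ ∑ p ∈ act l, ρ p.1 ≤ 1 + δ) ∧
      ∀ l, ∫ θ in cube D,
        ‖e (T l * (G θ : ℝ)) - ∑ p ∈ act l, c l p * e (rdot (sgnVec p) θ)‖ ^ 2 ≤ δ

/-- K2a. Labels: co-active signed harmonics get disjoint sets, opposite ones mirrored sets. -/
def LabelSpec : Prop :=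
  ∀ (α : Type) [DecidableEq α] (L W0 : ℕ) (act : Fin (L + 1) → Finset (α × Bool)) (k : α → ℕ),
    (∀ p : α × Bool, ({l | p ∈ act l} : Set (Fin (L + 1))).OrdConnected) →
    (∀ n b, (n, b) ∈ act (Fin.last L) → (n, !b) ∈ act (Fin.last L)) →
    (∀ n b l l', (n, b) ∈ act l → (n, !b) ∈ act l' →
      (n, b) ∈ act (Fin.last L) ∧ (n, !b) ∈ act (Fin.last L)) →
    (∀ l, ∑ p ∈ act l, k p.1 ≤ 2 * W0) → (∀ n, k n ≤ 2 * W0) →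
    ∃ Λ : α → Finset (Fin (2 * W0)), (∀ n, (Λ n).card = k n) ∧
      ∀ l, ∀ p ∈ act l, ∀ p' ∈ act l, p ≠ p' →
        Disjoint (if p.2 then Λ p.1 else (Λ p.1).image Fin.rev)
          (if p'.2 then Λ p'.1 else (Λ p'.1).image Fin.rev)

/-- K2b. Tiling. Residues carry labels, mirrored residues mirrored labels; the cells `a + l`
of `n` carry labels in `Λ n`, and cover the share `k n / W` of all residues. -/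
def LabelTilingSpec : Prop :=
  ∀ (D : ℕ) (S : Finset (Fin D → ℤ)) (v : Fin D → ℤ), 2 ≤ D → S.Nonempty →
    (∀ n ∈ S, ∃ y, dot n y = 1) → (∀ n ∈ S, -n ∉ S) → (∀ n ∈ S, 0 < dot n v) →
    ∀ (W0 : ℕ) (Λ : (Fin D → ℤ) → Finset (Fin (2 * W0))), (∀ n ∈ S, (Λ n).Nonempty) →
    ∀ δ : ℝ, 0 < δ →
    ∃ (h : ℕ) (χ : ℕ → Fin (2 * W0)) (A : (Fin D → ℤ) → Finset ℕ) (c : (Fin D → ℤ) → ℕ),
      0 < h ∧ (∀ r < h, χ (h - 1 - r) = (χ r).rev) ∧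
      (∀ n ∈ S, ∀ a ∈ A n, ∀ l < (dot n v).toNat, a + l < h ∧ χ (a + l) ∈ Λ n) ∧
      (∀ n ∈ S, ∀ a ∈ A n, ∀ a' ∈ A n, ∀ l < (dot n v).toNat, ∀ l' < (dot n v).toNat,
        a + l = a' + l' → a = a') ∧
      (∀ n ∈ S, 0 < c n) ∧ Set.InjOn c S ∧
      ∀ M : ℕ, 1 ≤ M → ∃ (Nb : ℕ) (b : Fin Nb → Fin D → ℤ) (r : Fin Nb → (Fin D → ℤ) → ℕ),
        M ≤ Nb ∧
        (∀ i, ∀ n ∈ S, ((dot n (b i)) % (h : ℤ)).toNat ∈ A n ∧ r i n < c n * M + 1) ∧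
        (∀ i i', ∀ n ∈ S, dot n (b i) % (h : ℤ) = dot n (b i') % (h : ℤ) → r i n = r i' n →
          i = i') ∧
        ∀ n ∈ S, |(Nb : ℝ) * (dot n v).toNat / ((h : ℝ) * ((c n * M + 1 : ℕ) : ℝ))
            - ((Λ n).card : ℝ) / (2 * W0 : ℕ)| ≤ δ * (((Λ n).card : ℝ) / (2 * W0 : ℕ))

/-- K3. Random phases make bounded error functions small on average on every net point. -/
def ShiftSpec : Prop :=
  ∀ (D L : ℕ) (B ε : ℝ), 0 < ε → 0 ≤ B → ∃ N0 : ℕ, ∀ Nb ≥ N0, ∀ (len : ℕ)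
    (x : Fin Nb → Fin len → Fin D → ℝ) (u : Fin L → (Fin D → ℝ) → ℂ),
    (∀ l, Measurable (u l)) → (∀ l θ, ‖u l θ‖ ≤ B) →
    (∀ l θ (z : Fin D → ℤ), u l (fun i => θ i + (z i : ℝ)) = u l θ) →
    ∃ φ : Fin Nb → Fin D → ℝ, ∀ l, ∑ i, ∑ j, ‖u l (x i j + φ i)‖ ^ 2 ≤
      (Nb : ℝ) * len * ((∫ θ in cube D, ‖u l θ‖ ^ 2) + ε)

/-- K4. A quadratic chirp fills its band with constant modulus, in mean square. -/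
def PieceSpec : Prop :=
  ∀ σ w ε : ℝ, 0 < σ → 0 < w → σ * w < 1 → 0 < ε → ∃ N0 : ℕ, ∀ N ≥ N0,
    ∃ Φ : ℝ → ℂ, Measurable Φ ∧
      (∀ τ, τ ∈ Set.Ico (0 : ℝ) 1 → ‖Φ τ‖ = if τ < σ * w then 1 else 0) ∧
      ∫ τ in (0 : ℝ)..1, ‖(√σ : ℂ) * (∑ i ∈ range ⌊w * (N : ℝ)⌋₊,
          e (σ * (i : ℝ) ^ 2 / (2 * N) - (i : ℝ) * τ)) - (√N : ℂ) * Φ τ‖ ^ 2 ≤ ε * N

end Vale.Agent.P130.Rank
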