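import Vale.Agent.P130.Rank.Spec
import Vale.Agent.P130.Rank.GraphWave.Cube
import Vale.Agent.P130.Rank.GraphWave.Weights
import Vale.Agent.P130.Rank.GraphWave.Coef

/-!
K1: the graph waveform and its harmonics.
-/

open Real Finset MeasureTheory
open scoped ComplexConjugate
open Vale.Agent.P110.Exist (e dot norm_e e_add e_neg continuous_e)

namespace Vale.Agent.P130.Rank.GW

variable {D : ℕ}

/-- The height at a point of the torus. -/
noncomputable def wave (R : ℕ) (d : ℝ) (θ : Fin (D + 1) → ℝ) : ℕ := ⌊Y R d (phase θ)⌋₊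

/-- The mass of a vector. -/
noncomputable def rhoVec (R d : ℝ) (n : Fin (D + 1) → ℤ) : ℝ :=
  rho0 R d (n 0) * qprod (n 0) fun i => n i.succ

/-- The vectors over the frequencies in `K`. -/
noncomputable def vecs (J : Finset ℤ) (K : Finset ℤ) : Finset (Fin (D + 1) → ℤ) :=
  haveI := Classical.decEq (Fin (D + 1) → ℤ)
  K.biUnion fun k => (primBox J k).image (Fin.cons k)

lemma mem_vecs {J K : Finset ℤ} {n : Fin (D + 1) → ℤ} :
    n ∈ vecs J K ↔ n 0 ∈ K ∧ (Fin.tail n) ∈ primBox J (n 0) := by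
  classical
  simp only [vecs, mem_biUnion, mem_image]
  constructor
  · rintro ⟨k, hk, x, hx, rfl⟩
    simpa using ⟨hk, hx⟩
  · rintro ⟨h1, h2⟩
    exact ⟨n 0, h1, Fin.tail n, h2, Fin.cons_self_tail n⟩

/-- The signed vectors active over a set of frequencies. -/
noncomputable def actVec (J K A : Finset ℤ) : Finset ((Fin (D + 1) → ℤ) × Bool) :=
  haveI := Classical.decEq (Fin (D + 1) → ℤ)
  ((vecs J K) ×ˢ (Finset.univ : Finset Bool)).filter fun p => sgnVec p 0 ∈ A

lemma mem_actVec {J K A : Finset ℤ} {p : (Fin (D + 1) → ℤ) × Bool} :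
    p ∈ actVec J K A ↔ p.1 ∈ vecs J K ∧ sgnVec p 0 ∈ A := by
  simp [actVec]

/-- Summation over the active vectors. -/
lemma sum_actVec {R d : ℝ} {J K A : Finset ℤ} (hK : ∀ k ∈ K, 0 < k)
    (hA : ∀ k ∈ A, k ≠ 0 ∧ |k| ∈ K) (g : ℤ → ℝ) :
    ∑ p ∈ actVec (D := D) J K A, rhoVec R d p.1 * g (sgnVec p 0) =
      ∑ k ∈ A, rho0 R d k * (∑ n ∈ primBox (D := D) J |k|, qprod |k| n) * g k := by
  classical
  simp only [mul_sum, sum_mul]
  rw [sum_sigma' A fun k => primBox (D := D) J |k|]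
  refine sum_bij' (fun p _ => ⟨sgnVec p 0, Fin.tail p.1⟩)
    (fun x _ => (Fin.cons |x.1| x.2, decide (0 < x.1))) ?_ ?_ ?_ ?_ ?_
  · rintro ⟨n, b⟩ hp
    obtain ⟨h1, h2⟩ := mem_actVec.1 hp
    obtain ⟨h3, h4⟩ := mem_vecs.1 h1
    have hn := hK _ h3
    refine mem_sigma.2 ⟨h2, ?_⟩
    cases b <;> simpa [sgnVec, abs_of_pos hn] using h4
  · rintro ⟨k, n⟩ hx
    obtain ⟨hk, hn⟩ := mem_sigma.1 hx
    obtain ⟨hk0, hkK⟩ := hA k hk
    refine mem_actVec.2 ⟨mem_vecs.2 (by simpa using ⟨hkK, hn⟩), ?_⟩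
    rcases hk0.lt_or_gt with h | h
    · simpa [sgnVec, h.not_gt, abs_of_neg h] using hk
    · simpa [sgnVec, h, abs_of_pos h] using hk
  · rintro ⟨n, b⟩ hp
    have hn : 0 < n 0 := hK _ (mem_vecs.1 (mem_actVec.1 hp).1).1
    have hn' : ¬ (0 < -(n 0)) := by omega
    cases b <;> simp [sgnVec, abs_of_pos hn, hn, hn.le, Fin.cons_self_tail]
  · rintro ⟨k, n⟩ hx
    obtain ⟨hk0, -⟩ := hA k (mem_sigma.1 hx).1
    rcases hk0.lt_or_gt with h | h
    · simp [sgnVec, h.not_gt, abs_of_neg h]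
    · simp [sgnVec, h, abs_of_pos h]
  · rintro ⟨n, b⟩ hp
    have hn : 0 < n 0 := hK _ (mem_vecs.1 (mem_actVec.1 hp).1).1
    cases b <;> simp [sgnVec, rhoVec, abs_of_pos hn, rho0_neg, Fin.tail_def]

lemma qprod_neg (k : ℤ) (n : Fin D → ℤ) : qprod (-k) (fun i => -n i) = qprod k n := by
  simp [qprod, qw_neg]

/-- A unit number with the same argument. -/
noncomputable def unitPhase (z : ℂ) : ℂ := Complex.exp ((Complex.arg z : ℂ) * Complex.I)

lemma norm_unitPhase (z : ℂ) : ‖unitPhase z‖ = 1 := Complex.norm_exp_ofReal_mul_I _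

lemma re_conj_unitPhase (r : ℝ) (z : ℂ) : (conj ((r : ℂ) * unitPhase z) * z).re = r * ‖z‖ := by
  conv_lhs => rw [← Complex.norm_mul_exp_arg_mul_I z]
  rw [map_mul, Complex.conj_ofReal, Complex.norm_mul_exp_arg_mul_I]
  have h : conj (unitPhase z) * z = (‖z‖ : ℂ) := by
    have h1 : z = (‖z‖ : ℂ) * unitPhase z := (Complex.norm_mul_exp_arg_mul_I z).symm
    conv_lhs => arg 2; rw [h1]
    rw [mul_left_comm, Complex.conj_mul', norm_unitPhase]
    simp
  rw [mul_assoc, h, ← Complex.ofReal_mul, Complex.ofReal_re]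

lemma sgnVec_mem_injOn {J K A : Finset ℤ} (hK : ∀ k ∈ K, 0 < k) :
    Set.InjOn (sgnVec (D := D + 1)) ((actVec (D := D) J K A : Finset _) : Set ((Fin (D + 1) → ℤ) × Bool)) := by
  rintro ⟨n, b⟩ hp ⟨n', b'⟩ hp' h
  have hn := hK _ (mem_vecs.1 (mem_actVec.1 hp).1).1
  have hn' := hK _ (mem_vecs.1 (mem_actVec.1 hp').1).1
  simp only at hn hn'
  have h0 := congrFun h 0
  cases b <;> cases b' <;> simp [sgnVec] at h h0 ⊢ <;> first | exact h | omega

/-- **K1.** -/
theorem graphWaveSpec : GraphWaveSpec := by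
  classical
  intro δ η hδ hη hη2
  obtain ⟨C, hC0, hC⟩ := coefFacts
  set a := min δ 1 / 8
  have ha : 0 < a := by positivity
  have ha1 : a ≤ 1 / 8 := by
    simp only [a]; linarith [min_le_right δ 1]
  have haδ : 8 * a ≤ δ := by
    simp only [a]; linarith [min_le_left δ 1]
  obtain ⟨R, d, γ, M, P⟩ := exists_par hC0 hC hη hη2.le ha (by linarith)
  refine ⟨R, P.one_le_R, fun L T hT hTmem hTlast => ?_⟩
  set A := fun l => act1 R d γ M (T l) with hAdef
  set K := (univ.biUnion A).image fun k => |k|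
  have hA : ∀ l, ∀ k ∈ A l, k ≠ 0 ∧ |k| ∈ K := fun l k hk =>
    ⟨P.ne_zero (hTmem l) hk, mem_image_of_mem _ (mem_biUnion.2 ⟨l, mem_univ _, hk⟩)⟩
  have hK : ∀ k ∈ K, 0 < k ∧ 0 < rho0 R d k := by
    intro k hk
    simp only [K, mem_image, mem_biUnion] at hk
    obtain ⟨k', ⟨l, -, hk'⟩, rfl⟩ := hk
    obtain ⟨m, hm, hkm⟩ := mem_biUnion.1 hk'
    have h := (P.rho_compare (hTmem l) hm hkm).2.2
    refine ⟨abs_pos.2 (hA l k' hk').1, ?_⟩
    rcases abs_choice k' with e | e <;> rw [e] <;> simpa [rho0_neg] using h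
  obtain ⟨D, J, hD, hJ⟩ := exists_box hC K (fun k hk => (hK k hk).1.ne') ha
  set act := fun l => actVec (D := D) J K (A l)
  set z := fun (l : Fin (L + 1)) (p : (Fin (D + 1) → ℤ) × Bool) =>
    ∫ θ in cube (D + 1), e (T l * (wave R d θ : ℝ)) * e (-rdot (sgnVec p) θ)
  set c := fun l p => ((√(rhoVec R d p.1) : ℝ) : ℂ) * unitPhase (z l p)
  have hK' : ∀ k ∈ K, 0 < k := fun k hk => (hK k hk).1
  have hrho : ∀ n ∈ vecs (D := D) J K, 0 < rhoVec R d n := fun n hn => by
    obtain ⟨h1, -⟩ := mem_vecs.1 hn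
    exact mul_pos (hK _ h1).2 (prod_pos fun i _ => qw_pos hC (hK' _ h1).ne' _)
  have hmeas : Measurable fun θ : Fin (D + 1) → ℝ => wave R d θ := by
    unfold wave Y
    exact Nat.measurable_floor.comp (by have := measurable_phase (D := D); fun_prop)
  -- sums over the active vectors
  have hbox : ∀ l, ∀ k ∈ A l, 1 - a ≤ ∑ n ∈ primBox (D := D) J |k|, qprod |k| n ∧
      ∑ n ∈ primBox (D := D) J |k|, qprod |k| n ≤ 1 := fun l k hk =>
    ⟨hJ _ (hA l k hk).2, qprod_primBox_le hC _ _⟩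
  have hsum : ∀ l, (1 - a) * (1 - a) ≤ ∑ p ∈ act l, rhoVec R d p.1 ∧
      ∑ p ∈ act l, rhoVec R d p.1 ≤ 1 + a := fun l => by
    have h := sum_actVec (D := D) (R := (R : ℝ)) (d := d) (J := J) hK' (hA l) fun _ => 1
    simp only [mul_one] at h
    have hr : ∀ k, 0 ≤ rho0 R d k := fun k => rho0_nonneg P.d_pos.le _ k
    obtain ⟨m1, m2⟩ := P.mass (hTmem l)
    simp only [act]
    rw [h]
    constructor
    · calc (1 - a) * (1 - a) ≤ (1 - a) * ∑ k ∈ A l, rho0 R d k :=
            mul_le_mul_of_nonneg_left m1 (by linarith)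
        _ ≤ _ := by
            rw [mul_sum]
            exact sum_le_sum fun k hk => by
              rw [mul_comm]
              exact mul_le_mul_of_nonneg_left (hbox l k hk).1 (hr k)
    · exact (sum_le_sum fun k hk => mul_le_of_le_one_right (hr k) (hbox l k hk).2).trans m2
  -- the coefficients
  have hz : ∀ l, ∀ p ∈ act l,
      √(rhoVec R d p.1) * ‖z l p‖ =
        rhoVec R d p.1 * (‖H R d (T l) (sgnVec p 0)‖ / √(rho0 R d (sgnVec p 0))) := by
    intro l p hp
    obtain ⟨hp1, hp2⟩ := mem_actVec.1 hp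
    have hφ : Measurable fun u : ℝ => e (T l * (⌊Y R d u⌋₊ : ℝ)) := by
      refine continuous_e.measurable.comp (measurable_const.mul ?_)
      exact (measurable_from_top (f := ((↑) : ℕ → ℝ))).comp
        (Nat.measurable_floor.comp (by unfold Y; fun_prop))
    have hH : H R d (T l) (sgnVec p 0) =
        ∫ u in (0 : ℝ)..1, e (T l * (⌊Y R d u⌋₊ : ℝ)) * e (-(sgnVec p 0 : ℝ) * u) := by
      simp only [H, ← e_add, neg_mul, ← sub_eq_add_neg]
    have hzc : z l p = H R d (T l) (sgnVec p 0) * prodGam (sgnVec p 0) fun i => sgnVec p i.succ := by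
      rw [hH, ← cube_coef hφ (fun u => le_of_eq (norm_e _)) (sgnVec p)]
      rfl
    have hq : ‖prodGam (sgnVec p 0) fun i => sgnVec p i.succ‖ =
        √(qprod (p.1 0) fun i => p.1 i.succ) := by
      have : ‖prodGam (sgnVec p 0) fun i => sgnVec p i.succ‖ ^ 2 =
          qprod (p.1 0) fun i => p.1 i.succ := by
        obtain ⟨n, b⟩ := p
        cases b <;> simp [prodGam, qprod, qw, sgnVec, norm_prod, ← prod_pow]
        exact prod_congr rfl fun i _ => qw_neg _ _
      rw [← this, Real.sqrt_sq (norm_nonneg _)]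
    obtain ⟨h1, -⟩ := mem_vecs.1 hp1
    have hr : rho0 R d (sgnVec p 0) = rho0 R d (p.1 0) := by
      obtain ⟨n, b⟩ := p
      cases b <;> simp [sgnVec, rho0_neg]
    have hr0 := (hK _ h1).2
    have hq0 : 0 ≤ qprod (p.1 0) fun i => p.1 i.succ := prod_nonneg fun i _ => sq_nonneg _
    rw [hzc, norm_mul, hq, hr, rhoVec, Real.sqrt_mul hr0.le]
    calc √(rho0 R d (p.1 0)) * √(qprod (p.1 0) fun i => p.1 i.succ) *
          (‖H R d (T l) (sgnVec p 0)‖ * √(qprod (p.1 0) fun i => p.1 i.succ))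
        = √(rho0 R d (p.1 0)) * (qprod (p.1 0) fun i => p.1 i.succ) *
            ‖H R d (T l) (sgnVec p 0)‖ := by
          linear_combination √(rho0 R d (p.1 0)) * ‖H R d (T l) (sgnVec p 0)‖ *
            Real.mul_self_sqrt hq0
      _ = _ := by
          field_simp
          rw [Real.sq_sqrt hr0.le]
          ring
  have hover : ∀ l, (1 - a) * (1 - a) ≤ ∑ p ∈ act l, √(rhoVec R d p.1) * ‖z l p‖ := fun l => by
    rw [sum_congr rfl (hz l), show act l = actVec J K (A l) from rfl,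
      sum_actVec hK' (hA l) fun k => ‖H R d (T l) k‖ / √(rho0 R d k)]
    refine (mul_le_mul_of_nonneg_left (P.overlap (hTmem l)) (by linarith)).trans ?_
    rw [mul_sum]
    refine sum_le_sum fun k hk => ?_
    have e1 : rho0 R d k * (∑ n ∈ primBox (D := D) J |k|, qprod |k| n) *
        (‖H R d (T l) k‖ / √(rho0 R d k)) =
        (∑ n ∈ primBox (D := D) J |k|, qprod |k| n) * (√(rho0 R d k) * ‖H R d (T l) k‖) := by
      have := Real.div_sqrt (x := rho0 R d k)
      linear_combination (∑ n ∈ primBox (D := D) J |k|, qprod |k| n) *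
        ‖H R d (T l) k‖ * this
    rw [e1]
    exact mul_le_mul_of_nonneg_right (hbox l k hk).1
      (mul_nonneg (sqrt_nonneg _) (norm_nonneg _))
  refine ⟨D + 1, wave R d, vecs J K, Pi.single 0 1, rhoVec R d, act, c, by omega, hmeas,
    fun θ => ?_, fun θ z => by simp [wave, phase_periodic], ?_, fun n hn => ?_, fun n hn hn' => ?_,
    fun n hn => ?_, hrho, fun l p hp => (mem_actVec.1 hp).1, fun p => ?_, fun n b hn => ?_,
    fun n b l l' h h' => ?_, fun l p hp => ?_, fun l => ⟨?_, ?_⟩, fun l => ?_⟩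
  · -- height
    have hu := phase_mem θ
    have hd := P.d_pos
    refine (Nat.floor_lt (by unfold Y; have := hu.1; positivity)).2 ?_
    unfold Y
    rw [div_lt_iff₀ (by linarith)]
    refine mul_lt_mul_of_pos_left ?_ P.R_pos
    nlinarith [hu.1, hu.2, mul_le_mul_of_nonneg_left
      (pow_le_one₀ (n := 2) hu.1 hu.2.le) hd.le]
  · -- nonempty
    rw [nonempty_iff_ne_empty]
    intro he
    have h := (hsum 0).1
    rw [show act 0 = ∅ from eq_empty_of_forall_notMem fun p hp => by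
      simpa [he] using (mem_actVec.1 hp).1, sum_empty] at h
    nlinarith
  · obtain ⟨-, h2⟩ := mem_vecs.1 hn
    simpa [Fin.cons_self_tail] using (mem_primBox.1 h2).2
  · have h1 := hK' _ (mem_vecs.1 hn).1
    have h2 := hK' _ (mem_vecs.1 hn').1
    simp only [Pi.neg_apply] at h2
    omega
  · simpa [dot, Pi.single_apply] using hK' _ (mem_vecs.1 hn).1
  · refine ⟨fun l₁ h₁ l₂ h₂ l hl => ?_⟩
    obtain ⟨hp, hk₁⟩ := mem_actVec.1 h₁
    exact mem_actVec.2 ⟨hp, P.convex (hTmem l₁) (hTmem l₂) (hT.monotone hl.1) (hT.monotone hl.2)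
      hk₁ (mem_actVec.1 h₂).2⟩
  · obtain ⟨hp, hk⟩ := mem_actVec.1 hn
    refine mem_actVec.2 ⟨hp, ?_⟩
    simp only [A, hTlast] at hk ⊢
    have := Par.mirror hk
    cases b <;> simpa [sgnVec] using this
  · obtain ⟨hp, hk⟩ := mem_actVec.1 h
    obtain ⟨-, hk'⟩ := mem_actVec.1 h'
    have hneg : sgnVec (n, !b) 0 = -sgnVec (n, b) 0 := by cases b <;> simp [sgnVec]
    rw [hneg] at hk'
    have h12 := P.opposite (hTmem l) (hTmem l') hk hk'
    refine ⟨mem_actVec.2 ⟨hp, ?_⟩, mem_actVec.2 ⟨hp, ?_⟩⟩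
    · simpa [A, hTlast] using h12
    · rw [hneg]
      simpa [A, hTlast] using Par.mirror h12
  · have := hrho _ (mem_actVec.1 hp).1
    simp [c, norm_unitPhase, Real.sq_sqrt this.le]
  · nlinarith [(hsum l).1]
  · linarith [(hsum l).2]
  · have hF : Measurable fun θ : Fin (D + 1) → ℝ => e (T l * (wave R d θ : ℝ)) :=
      continuous_e.measurable.comp
        (measurable_const.mul ((measurable_from_top (f := ((↑) : ℕ → ℝ))).comp hmeas))
    rw [norm_sub_sq (act l) sgnVec (sgnVec_mem_injOn hK') (c l) hF fun θ => norm_e _]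
    have e1 : ∀ p ∈ act l, (conj (c l p) * z l p).re = √(rhoVec R d p.1) * ‖z l p‖ := fun p _ =>
      re_conj_unitPhase _ _
    have e2 : ∀ p ∈ act l, ‖c l p‖ ^ 2 = rhoVec R d p.1 := fun p hp => by
      have := hrho _ (mem_actVec.1 hp).1
      simp [c, norm_unitPhase, Real.sq_sqrt this.le]
    change 1 - 2 * ∑ p ∈ act l, (conj (c l p) * z l p).re + ∑ p ∈ act l, ‖c l p‖ ^ 2 ≤ δ
    rw [sum_congr rfl e1, sum_congr rfl e2]
    nlinarith [hover l, (hsum l).2]

end Vale.Agent.P130.Rank.GW
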