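import Vale.Agent.P130.Rank.Spec

/-!
Labels for the signed harmonics: co-active ones get disjoint sets, opposite ones mirrored sets.
-/

open Finset

namespace Vale.Agent.P130.Rank

namespace LabelAux

/-- Disjoint sets of prescribed sizes inside a large enough set. -/
theorem exists_disjoint_choice {β γ : Type*} [DecidableEq β] [DecidableEq γ] (k : β → ℕ)
    (s : Finset β) (F : Finset γ) (hle : ∑ x ∈ s, k x ≤ F.card) :
    ∃ g : β → Finset γ, (∀ x ∈ s, g x ⊆ F ∧ (g x).card = k x) ∧
      ∀ x ∈ s, ∀ y ∈ s, x ≠ y → Disjoint (g x) (g y) := by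
  induction s using Finset.induction_on generalizing F with
  | empty => exact ⟨fun _ => ∅, by simp, by simp⟩
  | insert a s ha ih =>
    rw [Finset.sum_insert ha] at hle
    obtain ⟨A, hA, hAc⟩ := Finset.exists_subset_card_eq (s := F) (n := k a) (by omega)
    obtain ⟨g, hg, hd⟩ := ih (F \ A) (by rw [Finset.card_sdiff_of_subset hA]; omega)
    have hne : ∀ x ∈ s, x ≠ a := fun x hx he => ha (he ▸ hx)
    refine ⟨Function.update g a A, fun x hx => ?_, fun x hx y hy hxy => ?_⟩
    · rcases Finset.mem_insert.1 hx with rfl | hx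
      · simp [hA, hAc]
      · rw [Function.update_of_ne (hne x hx)]
        exact ⟨(hg x hx).1.trans Finset.sdiff_subset, (hg x hx).2⟩
    · rcases Finset.mem_insert.1 hx with hxa | hxs <;> rcases Finset.mem_insert.1 hy with hya | hys
      · exact absurd (hxa.trans hya.symm) hxy
      · rw [hxa, Function.update_self, Function.update_of_ne (hne y hys)]
        exact Finset.disjoint_sdiff.mono_right (hg y hys).1
      · rw [hya, Function.update_self, Function.update_of_ne (hne x hxs)]
        exact (Finset.disjoint_sdiff.mono_right (hg x hxs).1).symm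
      · rw [Function.update_of_ne (hne x hxs), Function.update_of_ne (hne y hys)]
        exact hd x hxs y hys hxy

variable {α : Type} {W : ℕ}

/-- The set carried by a signed harmonic. -/
def sset (Λ : α → Finset (Fin W)) (p : α × Bool) : Finset (Fin W) :=
  if p.2 then Λ p.1 else (Λ p.1).image Fin.rev

theorem card_sset (Λ : α → Finset (Fin W)) (p : α × Bool) :
    (sset Λ p).card = (Λ p.1).card := by
  unfold sset
  split_ifs
  · rfl
  · exact Finset.card_image_of_injective _ Fin.rev_injective

theorem image_rev_rev (A : Finset (Fin W)) : (A.image Fin.rev).image Fin.rev = A := by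
  rw [Finset.image_image, Fin.rev_involutive.comp_self, Finset.image_id]

theorem labels [DecidableEq α] (L W0 : ℕ) (act : Fin (L + 1) → Finset (α × Bool)) (k : α → ℕ)
    (hord : ∀ p : α × Bool, ({l | p ∈ act l} : Set (Fin (L + 1))).OrdConnected)
    (hlast : ∀ n b, (n, b) ∈ act (Fin.last L) → (n, !b) ∈ act (Fin.last L))
    (hopp : ∀ n b l l', (n, b) ∈ act l → (n, !b) ∈ act l' →
      (n, b) ∈ act (Fin.last L) ∧ (n, !b) ∈ act (Fin.last L))
    (hsum : ∀ l, ∑ p ∈ act l, k p.1 ≤ 2 * W0) (hk : ∀ n, k n ≤ 2 * W0) :
    ∀ l : Fin (L + 1), ∃ Λ : α → Finset (Fin (2 * W0)), (∀ n, (Λ n).card = k n) ∧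
      ∀ l', l ≤ l' → ∀ p ∈ act l', ∀ p' ∈ act l', p ≠ p' →
        Disjoint (sset Λ p) (sset Λ p') := by
  intro l
  induction l using Fin.reverseInduction with
  | last =>
    set A := act (Fin.last L) with hA
    set P := A.filter (fun p => p.2 = true) with hP
    have hsplit : ∑ p ∈ A, k p.1 = 2 * ∑ p ∈ P, k p.1 := by
      rw [← Finset.sum_filter_add_sum_filter_not A (fun p => p.2 = true), two_mul]
      congr 1
      refine Finset.sum_nbij' (fun p => (p.1, !p.2)) (fun p => (p.1, !p.2)) ?_ ?_ ?_ ?_ ?_
      · intro p hp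
        simp only [Finset.mem_filter, hP] at hp ⊢
        refine ⟨hlast p.1 p.2 hp.1, ?_⟩
        simpa using hp.2
      · intro p hp
        simp only [Finset.mem_filter, hP] at hp ⊢
        refine ⟨hlast p.1 p.2 hp.1, ?_⟩
        simpa using hp.2
      · intro p _; simp
      · intro p _; simp
      · intro p _; rfl
    set F : Finset (Fin (2 * W0)) :=
      Finset.univ.map (Fin.castLEEmb (show W0 ≤ 2 * W0 by omega)) with hF
    have hFlt : ∀ i ∈ F, (i : ℕ) < W0 := by
      intro i hi
      obtain ⟨j, -, rfl⟩ := Finset.mem_map.1 hi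
      exact j.isLt
    obtain ⟨g, hg, hd⟩ := exists_disjoint_choice (fun p : α × Bool => k p.1) P F
      (by have := hsum (Fin.last L); rw [← hA, hsplit] at this; simp [hF]; omega)
    have hdef : ∀ n, ∃ B : Finset (Fin (2 * W0)), B.card = k n ∧
        ((n, true) ∈ P → B = g (n, true)) := by
      intro n
      by_cases hn : (n, true) ∈ P
      · exact ⟨g (n, true), (hg _ hn).2, fun _ => rfl⟩
      · obtain ⟨B, -, hB⟩ := Finset.exists_subset_card_eq
          (s := (Finset.univ : Finset (Fin (2 * W0)))) (n := k n) (by simpa using hk n)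
        exact ⟨B, hB, fun h => absurd h hn⟩
    choose Λ hΛ hΛg using hdef
    refine ⟨Λ, hΛ, fun l' hl' p hp p' hp' hne => ?_⟩
    obtain rfl : l' = Fin.last L := le_antisymm (Fin.le_last l') hl'
    have hP' : ∀ q ∈ A, (q.1, true) ∈ P := by
      intro q hq
      rw [hP, Finset.mem_filter]
      refine ⟨?_, rfl⟩
      obtain ⟨n, b⟩ := q
      cases b
      · exact hlast n false hq
      · exact hq
    have hmem : ∀ n, (n, true) ∈ P → ∀ i ∈ Λ n, (i : ℕ) < W0 := fun n hn i hi =>
      hFlt i ((hg _ hn).1 (hΛg n hn ▸ hi))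
    have hmem' : ∀ n, (n, true) ∈ P → ∀ i ∈ (Λ n).image Fin.rev, W0 ≤ (i : ℕ) := by
      intro n hn i hi
      obtain ⟨j, hj, rfl⟩ := Finset.mem_image.1 hi
      have := hmem n hn j hj
      rw [Fin.val_rev]
      omega
    obtain ⟨n, b⟩ := p
    obtain ⟨n', b'⟩ := p'
    have hn := hP' _ hp
    have hn' := hP' _ hp'
    have hsame : n ≠ n' → Disjoint (Λ n) (Λ n') := fun h => by
      rw [hΛg n hn, hΛg n' hn']
      exact hd _ hn _ hn' (fun he => h (Prod.ext_iff.1 he).1)
    cases b <;> cases b'
    · simp only [sset, Bool.false_eq_true, if_false]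
      rw [Finset.disjoint_image Fin.rev_injective]
      exact hsame fun h => hne (by rw [h])
    · simp only [sset, Bool.false_eq_true, if_false, if_true]
      rw [Finset.disjoint_left]
      intro i hi hi'
      have := hmem' n hn i hi
      have := hmem n' hn' i hi'
      omega
    · simp only [sset, Bool.false_eq_true, if_false, if_true]
      rw [Finset.disjoint_left]
      intro i hi hi'
      have := hmem n hn i hi
      have := hmem' n' hn' i hi'
      omega
    · simp only [sset, if_true]
      exact hsame fun h => hne (by rw [h])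
  | cast i ih =>
    obtain ⟨Λ, hcard, hdisj⟩ := ih
    set cur := act i.castSucc with hcur
    set old := cur.filter (fun p => p ∈ act i.succ) with hold
    set new := cur.filter (fun p => p ∉ act i.succ) with hnew
    -- a newly born harmonic is the only active sign of its harmonic, and is never active later
    have hnever : ∀ p ∈ new, ∀ l', i.succ ≤ l' → p ∉ act l' := by
      intro p hp l' hl' hpl
      rw [hnew, Finset.mem_filter] at hp
      exact hp.2 ((hord p).out hp.1 hpl ⟨(Fin.castSucc_lt_succ).le, hl'⟩)
    have hflip : ∀ p ∈ new, ∀ l', (p.1, !p.2) ∉ act l' := by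
      intro p hp l' h
      have hp1 : p ∈ cur := (Finset.mem_filter.1 hp).1
      exact hnever p hp (Fin.last L) (Fin.le_last _) (hopp p.1 p.2 i.castSucc l' hp1 h).1
    set U := old.biUnion (sset Λ) with hU
    have hUcard : U.card ≤ ∑ p ∈ old, k p.1 :=
      Finset.card_biUnion_le.trans (le_of_eq (Finset.sum_congr rfl fun p _ => by
        rw [card_sset, hcard]))
    have htot : ∑ p ∈ old, k p.1 + ∑ p ∈ new, k p.1 ≤ 2 * W0 := by
      rw [hold, hnew, Finset.sum_filter_add_sum_filter_not]
      exact hsum _
    obtain ⟨g, hg, hd⟩ := exists_disjoint_choice (fun p : α × Bool => k p.1) new Uᶜ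
      (by rw [Finset.card_compl, Fintype.card_fin]; omega)
    let Λ' : α → Finset (Fin (2 * W0)) := fun n =>
      if (n, true) ∈ new then g (n, true)
      else if (n, false) ∈ new then (g (n, false)).image Fin.rev else Λ n
    have hgnew : ∀ p ∈ new, sset Λ' p = g p := by
      rintro ⟨n, b⟩ hp
      cases b
      · have hnt : (n, true) ∉ new := fun h =>
          hflip _ h i.castSucc (Finset.mem_filter.1 hp).1
        simp only [sset, Λ', Bool.false_eq_true, if_false, hnt, hp, if_true]
        exact image_rev_rev _
      · simp [sset, Λ', hp]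
    -- harmonics active later are untouched
    have hkeep : ∀ l', i.succ ≤ l' → ∀ p ∈ act l', sset Λ' p = sset Λ p := by
      intro l' hl' p hp
      have hb : ∀ b, (p.1, b) ∉ new := by
        intro b hb
        by_cases h : b = p.2
        · subst h; exact hnever _ hb l' hl' hp
        · apply hflip _ hb l'
          rw [Bool.eq_not.2 h, Bool.not_not]
          exact hp
      simp [sset, Λ', hb true, hb false]
    refine ⟨Λ', fun n => ?_, fun l' hl' p hp p' hp' hne => ?_⟩
    · simp only [Λ']
      split_ifs with h h'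
      · exact (hg _ h).2
      · rw [Finset.card_image_of_injective _ Fin.rev_injective]
        exact (hg _ h').2
      · exact hcard n
    · rcases eq_or_lt_of_le hl' with rfl | hlt
      · have hold_eq : ∀ q ∈ old, sset Λ' q = sset Λ q := fun q hq =>
          hkeep i.succ le_rfl q (Finset.mem_filter.1 hq).2
        have hcases : ∀ q ∈ cur, q ∈ old ∨ q ∈ new := by
          intro q hq
          by_cases h : q ∈ act i.succ
          · exact Or.inl (Finset.mem_filter.2 ⟨hq, h⟩)
          · exact Or.inr (Finset.mem_filter.2 ⟨hq, h⟩)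
        have hon : ∀ q ∈ old, ∀ q' ∈ new, Disjoint (sset Λ' q) (sset Λ' q') := by
          intro q hq q' hq'
          rw [hold_eq q hq, hgnew q' hq']
          exact (Finset.disjoint_left.2 fun x hx hx' => Finset.mem_compl.1 ((hg q' hq').1 hx')
            (Finset.mem_biUnion.2 ⟨q, hq, hx⟩))
        rcases hcases p hp with h | h <;> rcases hcases p' hp' with h' | h'
        · rw [hold_eq p h, hold_eq p' h']
          exact hdisj i.succ le_rfl p (Finset.mem_filter.1 h).2 p' (Finset.mem_filter.1 h').2 hne
        · exact hon p h p' h'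
        · exact (hon p' h' p h).symm
        · rw [hgnew p h, hgnew p' h']
          exact hd p h p' h' hne
      · have hle : i.succ ≤ l' := Fin.castSucc_lt_iff_succ_le.1 hlt
        rw [hkeep l' hle p hp, hkeep l' hle p' hp']
        exact hdisj l' hle p hp p' hp' hne

end LabelAux

theorem labelSpec : LabelSpec := by
  intro α _ L W0 act k hord hlast hopp hsum hk
  obtain ⟨Λ, h1, h2⟩ := LabelAux.labels L W0 act k hord hlast hopp hsum hk 0
  exact ⟨Λ, h1, fun l p hp p' hp' hne => h2 l (Fin.zero_le l) p hp p' hp' hne⟩

end Vale.Agent.P130.Rank
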