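import Vale.Agent.P130.Rank.Spec
import Vale.Agent.P130.Rank.LabelTiling.Count

/-!
The labelled tiling of the residues.
-/

open Finset
open Vale.Agent.P110.Exist (dot)

namespace Vale.Agent.P130.Rank

open LabelTiling
open Vale.Agent.P110.Exist.Tiling (place place_injOn addr addr_inj dot_emod exists_copies capacity
  rate_close)

namespace LabelTiling

variable {D H W : ℕ} [NeZero H]

/-- The label of a residue. -/
def chi (ω : Fin H → Fin W) (Lm r : ℕ) : Fin W := lab ω ((r / Lm : ℕ) : ZMod (2 * H))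

lemma chi_rev (ω : Fin H → Fin W) {Lm r : ℕ} (hr : r < 2 * H * Lm) :
    chi ω Lm (2 * H * Lm - 1 - r) = (chi ω Lm r).rev := by
  have hLm : 0 < Lm := Nat.pos_of_ne_zero fun h => by simp [h] at hr
  have h1 : r / Lm < 2 * H := (Nat.div_lt_iff_lt_mul hLm).2 hr
  have h2 : (2 * H * Lm - 1 - r) / Lm = 2 * H - 1 - r / Lm := by
    have e1 := Nat.div_add_mod r Lm
    have e2 := Nat.mod_lt r hLm
    refine Nat.div_eq_of_lt_le ?_ ?_
    · rw [Nat.sub_mul, Nat.sub_mul, one_mul, mul_comm (r / Lm)]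
      have : Lm * (r / Lm) + Lm ≤ 2 * H * Lm := by
        rw [← Nat.mul_succ, mul_comm]
        exact Nat.mul_le_mul_right _ h1
      omega
    · rw [show (2 * H - 1 - r / Lm) + 1 = 2 * H - r / Lm by omega, Nat.sub_mul,
        mul_comm (r / Lm)]
      have : Lm * (r / Lm) + Lm ≤ 2 * H * Lm := by
        rw [← Nat.mul_succ, mul_comm]
        exact Nat.mul_le_mul_right _ h1
      omega
  have hv : ((r / Lm : ℕ) : ZMod (2 * H)).val = r / Lm := ZMod.val_natCast_of_lt h1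
  have hv' : ((2 * H - 1 - r / Lm : ℕ) : ZMod (2 * H)).val = 2 * H - 1 - r / Lm :=
    ZMod.val_natCast_of_lt (by omega)
  have hf : Vale.Agent.P110.Exist.Tiling.fold ((2 * H - 1 - r / Lm : ℕ) : ZMod (2 * H)) =
      Vale.Agent.P110.Exist.Tiling.fold ((r / Lm : ℕ) : ZMod (2 * H)) := by
    ext
    simp only [Vale.Agent.P110.Exist.Tiling.fold, hv, hv']
    split_ifs <;> omega
  simp only [chi, h2, lab, hv, hv', hf]
  by_cases c : r / Lm < H
  · rw [if_pos c, if_neg (show ¬ 2 * H - 1 - r / Lm < H by omega)]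
  · rw [if_neg c, if_pos (show 2 * H - 1 - r / Lm < H by omega), Fin.rev_rev]

/-- A piece keeps the label of its tile, and pieces of one harmonic are disjoint. -/
lemma addr_piece {Lm L m : ℕ} (hL : L * m = Lm) {a : ZMod (2 * H) × ℕ} (ha : a.2 < L) {l : ℕ}
    (hl : l < m) : addr Lm m a + l < 2 * H * Lm ∧ (addr Lm m a + l) / Lm = a.1.val ∧
      (addr Lm m a + l) % Lm / m = a.2 := by
  have h1 : a.2 * m + l < Lm := by
    rw [← hL]
    calc a.2 * m + l < (a.2 + 1) * m := by rw [Nat.add_mul, one_mul]; omega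
      _ ≤ L * m := Nat.mul_le_mul_right _ ha
  have e : addr Lm m a + l = a.2 * m + l + Lm * a.1.val := by simp only [addr]; ring
  have hd : (addr Lm m a + l) / Lm = a.1.val := by
    rw [e, Nat.add_mul_div_left _ _ (by omega), Nat.div_eq_of_lt h1, Nat.zero_add]
  refine ⟨?_, hd, ?_⟩
  · have := Nat.mul_le_mul_right Lm (ZMod.val_lt a.1)
    simp only [addr, Nat.succ_mul] at this ⊢
    omega
  · rw [e, Nat.add_mul_mod_self_left, Nat.mod_eq_of_lt h1, mul_comm a.2,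
      Nat.mul_add_div (by omega), Nat.div_eq_of_lt hl, add_zero]

end LabelTiling

/-- K2b. The labelled tiling. -/
theorem labelTiling : LabelTilingSpec := by
  classical
  intro D S v hD hS hprim hneg hv W0 Λ hΛne δ hδ
  obtain ⟨n₁, hn₁⟩ := hS
  obtain ⟨W, hWdef⟩ : ∃ W, W = 2 * W0 := ⟨_, rfl⟩
  subst hWdef
  have hW : 0 < 2 * W0 := by
    obtain ⟨x, -⟩ := hΛne n₁ hn₁
    exact (Nat.zero_le _).trans_lt x.isLt
  obtain ⟨m, hm'⟩ : ∃ m : (Fin D → ℤ) → ℕ, ∀ n, m n = (dot n v).toNat := ⟨_, fun _ => rfl⟩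
  simp only [← hm']
  have hm : ∀ n ∈ S, 0 < m n ∧ dot n v = (m n : ℤ) := fun n hn => by
    have := hv n hn
    rw [hm']
    exact ⟨by omega, (Int.toNat_of_nonneg this.le).symm⟩
  obtain ⟨Lm, hLm⟩ : ∃ Lm, Lm = ∏ n ∈ S, m n := ⟨_, rfl⟩
  have hLm0 : 0 < Lm := hLm ▸ prod_pos fun n hn => (hm n hn).1
  obtain ⟨L, hL⟩ : ∃ L : (Fin D → ℤ) → ℕ, ∀ n ∈ S, L n * m n = Lm :=
    ⟨fun n => Lm / m n, fun n hn => Nat.div_mul_cancel (hLm ▸ dvd_prod_of_mem m hn)⟩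
  have hL0 : ∀ n ∈ S, 0 < L n := fun n hn => by
    rcases Nat.eq_zero_or_pos (L n) with h | h
    · have := hL n hn; rw [h, Nat.zero_mul] at this; omega
    · exact h
  obtain ⟨q, hq⟩ : ∃ q : Fin Lm → (Fin D → ℤ) → ℕ, ∀ j n, q j n = (j : ℕ) / L n :=
    ⟨_, fun _ _ => rfl⟩
  obtain ⟨k, hk⟩ : ∃ k : (Fin D → ℤ) → ℝ, ∀ n, k n = ((Λ n).card : ℝ) / (2 * W0 : ℕ) :=
    ⟨_, fun _ => rfl⟩
  have hk0 : ∀ n ∈ S, 0 < k n := fun n hn => by
    rw [hk]
    exact div_pos (Nat.cast_pos.2 (hΛne n hn).card_pos) (Nat.cast_pos.2 hW)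
  have hk1 : ∀ n, k n ≤ 1 := fun n => by
    rw [hk, div_le_one (Nat.cast_pos.2 hW)]
    exact_mod_cast (card_le_univ (Λ n)).trans_eq (Fintype.card_fin _)
  have hπ : 0 < ∏ n ∈ S, k n := prod_pos hk0
  obtain ⟨ε, hε, h4, hε6⟩ : ∃ ε : ℝ, 0 < ε ∧ 4 * ε ≤ δ ∧ ε ≤ 1 / 6 :=
    ⟨min (δ / 4) (1 / 6), lt_min (by positivity) (by norm_num),
      by linarith [min_le_left (δ / 4) (1 / 6)], min_le_right _ _⟩
  obtain ⟨H, _, ω, hω⟩ := exists_labelling hD hprim hneg hW Λ q n₁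
    (mul_pos (mul_pos hε hπ) (hk0 n₁ hn₁))
  rw [Fintype.card_fin, ← hk] at hω
  obtain ⟨N, hN'⟩ : ∃ N : ℝ, N = ((2 * H : ℕ) : ℝ) ^ (D - 1) := ⟨_, rfl⟩
  rw [← hN'] at hω
  have hH0 : (0 : ℝ) < H := by exact_mod_cast NeZero.pos H
  have hN : 0 < N := by rw [hN']; have := NeZero.pos H; positivity
  have hLr : (0 : ℝ) < Lm := by exact_mod_cast hLm0
  obtain ⟨G0, hG0⟩ : ∃ G0 : ℝ, G0 = 2 * H * Lm * N * ∏ n ∈ S, k n := ⟨_, rfl⟩
  have hG00 : 0 < G0 := by rw [hG0]; positivity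
  set O : ℝ := ε * (∏ n ∈ S, k n) * k n₁ * (2 * H * Lm * N)
  have hO : O = ε * k n₁ * G0 := by simp only [O, hG0]; ring
  have hdev0 : ∀ n, 0 ≤ ∑ j, ∑ s, |fibDev S Λ (q j) ω n s| := fun n =>
    sum_nonneg fun _ _ => sum_nonneg fun _ _ => abs_nonneg _
  have hZ : ∑ a ∈ S, ∑ j, ∑ s, |fibDev S Λ (q j) ω a s| ≤ ε * G0 := by
    refine le_trans ((le_add_of_nonneg_right (by positivity)).trans hω) ?_
    rw [hO]
    exact mul_le_mul_of_nonneg_right (mul_le_of_le_one_right hε.le (hk1 n₁)) hG00.le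
  have hG : |((LabelTiling.goods Λ q ω S).card : ℝ) - G0| ≤ ε * G0 := by
    have h := goods_close Λ q ω hn₁
    rw [Fintype.card_fin, ← hN', ← hk, show (∏ a ∈ S, ((Λ a).card : ℝ) / ((2 * W0 : ℕ) : ℝ)) =
      ∏ a ∈ S, k a from prod_congr rfl fun a _ => (hk a).symm, ← hG0] at h
    have hπ1 : ∏ a ∈ S, k a ≤ 1 := prod_le_one (fun a ha => (hk0 a ha).le) fun a _ => hk1 a
    have h2 : k n₁ * (∑ j, ∑ s, |fibDev S Λ (q j) ω n₁ s|) + (∏ a ∈ S, k a) * ((Lm : ℝ) * N *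
        |((tiles (Λ n₁) ω).card : ℝ) - 2 * H * k n₁|) ≤ O := by
      refine le_trans (add_le_add (mul_le_of_le_one_left (hdev0 n₁) (hk1 n₁))
        (mul_le_of_le_one_left (by positivity) hπ1)) (le_trans (add_le_add ?_ le_rfl) hω)
      exact single_le_sum (f := fun a => ∑ j, ∑ s, |fibDev S Λ (q j) ω a s|)
        (fun a _ => hdev0 a) hn₁
    have h3 := h.trans h2
    rw [hO, show ε * k n₁ * G0 = k n₁ * (ε * G0) by ring] at h3
    exact le_of_mul_le_mul_left h3 (hk0 n₁ hn₁)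
  obtain ⟨K, hK'⟩ : ∃ K : (Fin D → ℤ) → ℝ, ∀ n, K n =
      (m n : ℝ) * N * ∏ n' ∈ S.erase n, k n' := ⟨_, fun _ => rfl⟩
  have hK : ∀ n ∈ S, 0 < K n := fun n hn => by
    rw [hK']
    exact mul_pos (mul_pos (Nat.cast_pos.2 (hm n hn).1) hN)
      (prod_pos fun a ha => hk0 a (mem_of_mem_erase ha))
  obtain ⟨Λ', hΛ'⟩ := exists_nat_ge (∑ n ∈ S, 3 / (ε * K n) + 2 / G0)
  have hsum0 : 0 ≤ ∑ n ∈ S, 3 / (ε * K n) := sum_nonneg fun a ha => by
    have := hK a ha; positivity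
  have hΛG : 2 ≤ (Λ' : ℝ) * G0 := by
    have : 2 / G0 ≤ Λ' := (le_add_of_nonneg_left hsum0).trans hΛ'
    rwa [div_le_iff₀ hG00] at this
  have hΛn : ∀ n ∈ S, 3 ≤ ε * Λ' * K n := fun n hn => by
    have h : 3 / (ε * K n) ≤ Λ' := (single_le_sum (f := fun a => 3 / (ε * K a))
      (fun a ha => by have := hK a ha; positivity) hn).trans
        ((le_add_of_nonneg_right (by positivity)).trans hΛ')
    rw [div_le_iff₀ (mul_pos hε (hK n hn))] at h
    linarith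
  have hplace : ∀ n ∈ S, place S n < S.card := fun n hn => by
    rw [place, dif_pos hn]; exact (S.equivFin ⟨n, hn⟩).isLt
  have hScard : 0 < S.card := card_pos.2 ⟨n₁, hn₁⟩
  refine ⟨2 * H * Lm, chi ω Lm,
    fun n => (tiles (Λ n) ω ×ˢ range (L n)).image (addr Lm (m n)),
    fun n => S.card * ⌈(Λ' : ℝ) * K n⌉₊ + place S n + 1,
    Nat.mul_pos (Nat.mul_pos two_pos (NeZero.pos H)) hLm0, fun r hr => chi_rev ω hr, ?_, ?_,
    fun n _ => Nat.succ_pos _, ?_, fun M hM => ?_⟩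
  · intro n hn a ha l hl
    obtain ⟨u, hu, rfl⟩ := mem_image.1 ha
    obtain ⟨h1, h2⟩ := mem_product.1 hu
    obtain ⟨h3, h4, -⟩ := addr_piece (hL n hn) (mem_range.1 h2) hl
    refine ⟨h3, ?_⟩
    rw [chi, h4, ZMod.natCast_zmod_val]
    exact (mem_filter.1 h1).2
  · intro n hn a ha a' ha' l hl l' hl' e
    obtain ⟨u, hu, rfl⟩ := mem_image.1 ha
    obtain ⟨u', hu', rfl⟩ := mem_image.1 ha'
    obtain ⟨-, h4, h5⟩ := addr_piece (hL n hn) (mem_range.1 (mem_product.1 hu).2) hl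
    obtain ⟨-, h4', h5'⟩ := addr_piece (hL n hn) (mem_range.1 (mem_product.1 hu').2) hl'
    rw [e] at h4 h5
    rw [Prod.ext (ZMod.val_injective _ (h4.symm.trans h4')) (h5.symm.trans h5')]
  · intro n hn n' hn' e
    refine place_injOn S hn hn' ?_
    have := congrArg (· % S.card) (Nat.succ.inj e)
    simpa [Nat.mul_add_mod, Nat.mod_eq_of_lt (hplace n hn),
      Nat.mod_eq_of_lt (hplace n' hn')] using this
  obtain ⟨Nb, x, r, hx, hr, hinj, hNb1, hNb2⟩ := exists_copies S (LabelTiling.goods Λ q ω S)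
    (fun n x => (tileS (q x.2) n x.1, (x.2 : ℕ) % L n))
    (fun n => (S.card * ⌈(Λ' : ℝ) * K n⌉₊ + place S n + 1) * M + 1) (S.card * Λ' * M)
  have hgood : ∀ i, Good S Λ (q (x i).2) ω (x i).1 := fun i => (mem_filter.1 (hx i)).2
  have hmod : ∀ i, ∀ n ∈ S,
      dot n (fun j => (Lm : ℤ) * (((x i).1 j).val : ℤ) + ((x i).2 : ℕ) * v j) %
        ((2 * H * Lm : ℕ) : ℤ) =
          (addr Lm (m n) (tileS (q (x i).2) n (x i).1, ((x i).2 : ℕ) % L n) : ℕ) := fun i n hn =>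
    dot_emod (hL n hn) (hm n hn).1 (hL0 n hn) n v (hm n hn).2 _ _ _ (by rw [tileS, hq])
  have hcap := fun a (ha : a ∈ S) =>
    capacity (M := M) hScard hM (hK a ha).le (hplace a ha) (hΛn a ha)
  obtain ⟨R, hR⟩ : ∃ R, R = S.card * Λ' * M := ⟨_, rfl⟩
  rw [← hR] at hNb1 hNb2 hcap
  have hN2 : (R : ℝ) * (LabelTiling.goods Λ q ω S).card ≤ Nb + R * (ε * G0) := by
    refine le_trans (by exact_mod_cast hNb2) (le_of_eq_of_le (Nat.cast_add _ _)
      (add_le_add_right ?_ _))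
    rw [Nat.cast_sum]
    refine le_trans (sum_le_sum (g := fun a => (R : ℝ) *
        ∑ j, ∑ s, |fibDev S Λ (q j) ω a s|) fun a ha => ?_)
      ((mul_sum S _ (R : ℝ)).symm.trans_le (mul_le_mul_of_nonneg_left hZ (Nat.cast_nonneg _)))
    refine overflow_le Λ ω q (hL a ha) (hL0 a ha) ha ?_
    refine le_of_eq_of_le ?_ (hcap a ha).1
    rw [hK', hN', prod_congr rfl fun b (_ : b ∈ S.erase a) => (hk b).symm]
  have hN1 : (Nb : ℝ) ≤ R * (LabelTiling.goods Λ q ω S).card := by exact_mod_cast hNb1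
  have hR0 : (0 : ℝ) ≤ R := Nat.cast_nonneg _
  have hclose : |(Nb : ℝ) - R * G0| ≤ 3 * ε * (R * G0) := by
    have hGa := abs_le.1 hG
    rw [abs_le]
    constructor <;> nlinarith [mul_le_mul_of_nonneg_left hGa.1 hR0,
      mul_le_mul_of_nonneg_left hGa.2 hR0, mul_nonneg hR0 (mul_nonneg hε.le hG00.le)]
  refine ⟨Nb, fun i j => (Lm : ℤ) * (((x i).1 j).val : ℤ) + ((x i).2 : ℕ) * v j, r, ?_,
    fun i n hn => ⟨?_, hr i n hn⟩, fun i i' n hn e e' => ?_, fun n hn => ?_⟩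
  · have hRM : 2 * (M : ℝ) ≤ R * G0 := by
      have hS1 : (1 : ℝ) ≤ (S.card : ℝ) := by exact_mod_cast hScard
      rw [hR]; push_cast
      nlinarith [mul_le_mul hS1 hΛG zero_le_two (Nat.cast_nonneg _), Nat.cast_nonneg (α := ℝ) M]
    have := (abs_le.1 hclose).1
    have hle : (M : ℝ) ≤ Nb := by
      nlinarith [mul_le_mul_of_nonneg_right hε6 (mul_nonneg hR0 hG00.le)]
    exact_mod_cast hle
  · rw [hmod i n hn, Int.toNat_natCast]
    exact mem_image_of_mem _ (mem_product.2 ⟨mem_filter.2 ⟨mem_univ _, hgood i n hn⟩,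
      mem_range.2 (Nat.mod_lt _ (hL0 n hn))⟩)
  · rw [hmod i n hn, hmod i' n hn, Nat.cast_inj] at e
    exact hinj i i' n hn (addr_inj (hL n hn) (hm n hn).1
      (Nat.mod_lt _ (hL0 n hn)) (Nat.mod_lt _ (hL0 n hn)) e) e'
  rw [← div_div, ← hk n]
  refine rate_close (hk0 n hn).le (mul_nonneg hR0 (hK n hn).le) hε.le h4
    (by exact_mod_cast Nat.succ_pos _) (hcap n hn).1 (hcap n hn).2 ?_
  obtain ⟨c, hc⟩ : ∃ c : ℝ, c = (m n : ℝ) / ((2 * H * Lm : ℕ) : ℝ) := ⟨_, rfl⟩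
  have hc0 : 0 ≤ c := by rw [hc]; positivity
  have e1 : (Nb : ℝ) * (m n : ℝ) / ((2 * H * Lm : ℕ) : ℝ) = c * Nb := by rw [hc]; ring
  have e2 : k n * (R * K n) = c * (R * G0) := by
    rw [hK', hG0, hc, ← mul_prod_erase S k hn]
    push_cast
    field_simp
  rw [e1, e2, ← mul_sub, abs_mul, abs_of_nonneg hc0, mul_left_comm (3 * ε) c]
  exact mul_le_mul_of_nonneg_left hclose hc0

end Vale.Agent.P130.Rank
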