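import Vale.Agent.P130.Rank.Reduce
import Vale.Agent.P130.Rank.GraphWave

/-!
A rank-one transformation with simple Lebesgue spectrum.
-/

namespace Vale.Agent.P130.Rank

/-- There is a probability-preserving transformation with simple Lebesgue spectrum. -/
theorem simpleLebesgue : SimpleLebesgueSpec :=
  simpleLebesgue_of_wave GW.graphWaveSpec

end Vale.Agent.P130.Rank
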