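import Vale.Agent.P130.Rank.Spec
import Vale.Agent.P110.Exist.Fresnel

/-!
A quadratic chirp fills its band with constant modulus, in mean square.

Expanding the square, the sum carries its number of terms, the chirp the length of its band, and
the cross terms are Fresnel integrals by completing the square; all but `o(N)` of them are total.
-/

open Real Finset MeasureTheory intervalIntegral
open scoped ComplexConjugate
open Vale.Agent.P110.Exist

namespace Vale.Agent.P130.Rank.PiecePf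

attribute [local fun_prop] continuous_e

/-- The two-sided Fresnel integral through `0` is the total one up to the tails. -/
lemma fresnel_pair_le {x y : ℝ} (hx : 0 ≤ x) (hy : 0 ≤ y) :
    ‖fresnel x + fresnel y - fc‖ ≤ 3 / (1 + x) + 3 / (1 + y) := by
  have one : ∀ z : ℝ, 0 ≤ z → ‖fresnel z - fc / 2‖ ≤ 3 / (1 + z) := by
    intro z hz
    rcases hz.eq_or_lt with rfl | h
    · rw [fresnel_zero, zero_sub, norm_neg, norm_div, norm_fc, Complex.norm_ofNat]; norm_num
    · have := Fres.rem_le z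
      rwa [Fres.fresnelRem_of_pos h, abs_of_pos h] at this
  rw [show fresnel x + fresnel y - fc = (fresnel x - fc / 2) + (fresnel y - fc / 2) by ring]
  exact (norm_add_le _ _).trans (add_le_add (one x hx) (one y hy))

/-- Orthogonality of the characters of the circle. -/
lemma integral_char (k : ℤ) :
    ∫ t in (0 : ℝ)..1, e ((k : ℝ) * t) = if k = 0 then 1 else 0 := by
  split_ifs with hk
  · simp [hk]
  · have hc : (2 * π * (k : ℝ) : ℝ) * Complex.I ≠ 0 := by
      simp [Complex.I_ne_zero, pi_ne_zero, hk]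
    have h1 := e_int k
    simp only [e] at h1 ⊢
    rw [show (fun t : ℝ => Complex.exp (((2 * π * ((k : ℝ) * t) : ℝ) : ℂ) * Complex.I)) =
        fun t : ℝ => Complex.exp ((((2 * π * (k : ℝ) : ℝ) : ℂ) * Complex.I) * t) from by
          funext t; congr 1; push_cast; ring,
      integral_exp_mul_complex hc]
    push_cast at h1 ⊢
    simp [h1]

/-- The chirp sum. -/
noncomputable def S (σ : ℝ) (N M : ℕ) (τ : ℝ) : ℂ :=
  ∑ i ∈ range M, e (σ * (i : ℝ) ^ 2 / (2 * N) - (i : ℝ) * τ)

lemma continuous_S (σ : ℝ) (N M : ℕ) : Continuous (S σ N M) := by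
  unfold S e; fun_prop

lemma integral_norm_sq (σ : ℝ) (N M : ℕ) : ∫ τ in (0 : ℝ)..1, ‖S σ N M τ‖ ^ 2 = M := by
  have h : ∀ τ, ((‖S σ N M τ‖ ^ 2 : ℝ) : ℂ) = ∑ i ∈ range M, ∑ j ∈ range M,
      e (σ * (i : ℝ) ^ 2 / (2 * N) - σ * (j : ℝ) ^ 2 / (2 * N)) *
        e ((((j : ℤ) - i : ℤ) : ℝ) * τ) := by
    intro τ
    rw [Complex.ofReal_pow, ← Complex.mul_conj', S, map_sum, sum_mul_sum]
    refine sum_congr rfl fun i _ => sum_congr rfl fun j _ => ?_
    rw [← e_neg, ← e_add, ← e_add]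
    congr 1
    push_cast
    ring
  have hi : ∫ τ in (0 : ℝ)..1, ((‖S σ N M τ‖ ^ 2 : ℝ) : ℂ) = ((M : ℝ) : ℂ) := by
    simp_rw [h]
    rw [intervalIntegral.integral_finsetSum
      (fun i _ => Continuous.intervalIntegrable (by unfold e; fun_prop) _ _)]
    calc _ = ∑ i ∈ range M, (1 : ℂ) := sum_congr rfl fun i hi => ?_
      _ = _ := by simp
    rw [intervalIntegral.integral_finsetSum
      (fun j _ => Continuous.intervalIntegrable (by unfold e; fun_prop) _ _),
      sum_eq_single i]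
    · simp
    · intro j _ hj
      rw [intervalIntegral.integral_const_mul, integral_char, if_neg (by omega), mul_zero]
    · exact fun h => absurd hi h
  rw [intervalIntegral.integral_ofReal] at hi
  exact_mod_cast hi

/-- Completing the square. -/
lemma integral_cross {σ w : ℝ} {N : ℕ} (hσ : 0 < σ) (hN : 0 < N) (i : ℕ) :
    ∫ τ in (0 : ℝ)..σ * w, e (σ * (i : ℝ) ^ 2 / (2 * N) - (i : ℝ) * τ) *
        e ((N : ℝ) * τ ^ 2 / (2 * σ)) =
      (√(σ / N) : ℂ) *
        (fresnel (√(σ / N) * (i : ℝ)) + fresnel (√(σ / N) * (w * N - i))) := by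
  have hN' : (0 : ℝ) < N := Nat.cast_pos.2 hN
  set a := √(σ / N) with ha
  have a0 : 0 < a := by positivity
  have a2 : a ^ 2 = σ / N := Real.sq_sqrt (by positivity)
  have h : ∀ τ : ℝ, e (σ * (i : ℝ) ^ 2 / (2 * N) - (i : ℝ) * τ) *
      e ((N : ℝ) * τ ^ 2 / (2 * σ)) = e ((a⁻¹ * τ - a * i) ^ 2 / 2) := by
    intro τ
    rw [← e_add]
    congr 1
    rw [sub_sq, mul_pow, mul_pow, inv_pow, a2,
      show 2 * (a⁻¹ * τ) * (a * i) = 2 * τ * i * (a⁻¹ * a) by ring, inv_mul_cancel₀ a0.ne']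
    field_simp
    ring
  simp_rw [h]
  rw [intervalIntegral.integral_comp_mul_sub (fun u : ℝ => e (u ^ 2 / 2)) (inv_ne_zero a0.ne'),
    inv_inv, Complex.real_smul]
  congr 1
  have hc : Continuous fun u : ℝ => e (u ^ 2 / 2) := by unfold e; fun_prop
  rw [← intervalIntegral.integral_interval_sub_left (a := 0) (hc.intervalIntegrable _ _)
    (hc.intervalIntegrable _ _), mul_zero, zero_sub]
  change fresnel _ - fresnel _ = _
  rw [fresnel_neg, sub_neg_eq_add, add_comm,
    show a⁻¹ * (σ * w) - a * i = a * (w * N - i) by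
      have h3 : σ = a ^ 2 * N := by rw [a2]; field_simp
      rw [h3]; field_simp]

/-- The tails add up to `o(N)`. -/
lemma sum_tail_le {a d : ℝ} (ha : 0 < a) (hd : 0 < d) (N M : ℕ) (hN : 0 < N) :
    ∑ i ∈ range M, 1 / (1 + a * i) ≤ d * N + 1 + (M : ℝ) / (a * (d * N)) := by
  have hN' : (0 : ℝ) < N := Nat.cast_pos.2 hN
  set K := ⌈d * (N : ℝ)⌉₊
  have hK : d * N ≤ K := Nat.le_ceil _
  have hK' : (K : ℝ) ≤ d * N + 1 := (Nat.ceil_lt_add_one (by positivity)).le
  have hterm : ∀ i ∈ range M,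
      1 / (1 + a * (i : ℝ)) ≤ (if i < K then 1 else 0) + 1 / (a * (d * N)) := by
    intro i _
    split_ifs with h
    · have h1 : 1 / (1 + a * (i : ℝ)) ≤ 1 := by
        rw [div_le_one (by positivity)]
        exact le_add_of_nonneg_right (by positivity)
      have h2 : 0 ≤ 1 / (a * (d * N)) := by positivity
      linarith
    · rw [zero_add]
      have : d * N ≤ (i : ℝ) := hK.trans (Nat.cast_le.2 (not_lt.1 h))
      exact one_div_le_one_div_of_le (by positivity)
        ((mul_le_mul_of_nonneg_left this ha.le).trans (by linarith))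
  refine (sum_le_sum hterm).trans ?_
  rw [sum_add_distrib, sum_const, card_range, nsmul_eq_mul, sum_boole, mul_one_div]
  refine add_le_add (le_trans ?_ hK') le_rfl
  have : ({i ∈ range M | i < K}).card ≤ (range K).card :=
    card_le_card fun i hi => mem_range.2 (mem_filter.1 hi).2
  rw [card_range] at this
  exact_mod_cast this

/-- The chirp on its band. -/
noncomputable def g (σ : ℝ) (N : ℕ) (τ : ℝ) : ℂ := fc * e (-((N : ℝ) * τ ^ 2 / (2 * σ)))

lemma continuous_g (σ : ℝ) (N : ℕ) : Continuous (g σ N) := by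
  unfold g e; fun_prop

lemma norm_g (σ : ℝ) (N : ℕ) (τ : ℝ) : ‖g σ N τ‖ = 1 := by
  rw [g, norm_mul, norm_fc, norm_e, one_mul]

/-- The chirp, cut off to its band. -/
noncomputable def Φ (σ w : ℝ) (N : ℕ) (τ : ℝ) : ℂ :=
  if τ < σ * w then g σ N τ else 0

lemma measurable_Φ (σ w : ℝ) (N : ℕ) : Measurable (Φ σ w N) :=
  Measurable.ite measurableSet_Iio (continuous_g σ N).measurable measurable_const

lemma main_bound {σ w d : ℝ} {N : ℕ} (hσ : 0 < σ) (hw : 0 < w) (hσw : σ * w < 1) (hd : 0 < d)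
    (hN : 0 < N) :
    ∫ τ in (0 : ℝ)..1, ‖(√σ : ℂ) * S σ N ⌊w * (N : ℝ)⌋₊ τ - (√N : ℂ) * Φ σ w N τ‖ ^ 2 ≤
      σ + 12 * σ * (d * N + 1 + w * N / (√(σ / N) * (d * N))) := by
  have hN' : (0 : ℝ) < N := Nat.cast_pos.2 hN
  set M := ⌊w * (N : ℝ)⌋₊
  have hM : (M : ℝ) ≤ w * N := Nat.floor_le (by positivity)
  have hM' : w * N < M + 1 := Nat.lt_floor_add_one _
  have L0 : 0 ≤ σ * w := by positivity
  set a := √(σ / N) with ha
  have a0 : 0 < a := by positivity
  have eq1 : √σ * √N * a = σ := by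
    rw [ha, Real.sqrt_div hσ.le, mul_div_assoc', div_eq_iff (by positivity)]
    linear_combination √N * Real.mul_self_sqrt hσ.le
  have hcS := continuous_S σ N M
  have hcg := continuous_g σ N
  -- on the band
  have c1 : ∀ τ, ‖(√σ : ℂ) * S σ N M τ - (√N : ℂ) * g σ N τ‖ ^ 2 =
      σ * ‖S σ N M τ‖ ^ 2 + N - 2 * (√σ * √N) * (S σ N M τ * conj (g σ N τ)).re := by
    intro τ
    have h := norm_g σ N τ
    rw [Complex.sq_norm, Complex.normSq_sub, ← Complex.sq_norm, ← Complex.sq_norm, norm_mul,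
      norm_mul, mul_pow, mul_pow, h, map_mul, Complex.conj_ofReal,
      show (√σ : ℂ) * S σ N M τ * ((√N : ℂ) * conj (g σ N τ)) =
        ((√σ * √N : ℝ) : ℂ) * (S σ N M τ * conj (g σ N τ)) by push_cast; ring,
      Complex.re_ofReal_mul, Complex.norm_real, Complex.norm_real, Real.norm_eq_abs,
      Real.norm_eq_abs, sq_abs, sq_abs, Real.sq_sqrt hσ.le, Real.sq_sqrt hN'.le]
    ring
  have ioc : ∀ τ ∈ Set.Ioo (0 : ℝ) (σ * w),
      ‖(√σ : ℂ) * S σ N M τ - (√N : ℂ) * Φ σ w N τ‖ ^ 2 =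
        σ * ‖S σ N M τ‖ ^ 2 + N - 2 * (√σ * √N) * (S σ N M τ * conj (g σ N τ)).re := by
    intro τ hτ
    rw [Φ, if_pos hτ.2, c1]
  have out : ∀ τ ∈ Set.Icc (σ * w) 1,
      ‖(√σ : ℂ) * S σ N M τ - (√N : ℂ) * Φ σ w N τ‖ ^ 2 = σ * ‖S σ N M τ‖ ^ 2 := by
    intro τ hτ
    rw [Φ, if_neg (not_lt.2 hτ.1), mul_zero, sub_zero, norm_mul, mul_pow, Complex.norm_real,
      Real.norm_eq_abs, sq_abs, Real.sq_sqrt hσ.le]
  have hae : ∀ᵐ τ : ℝ, τ ∈ Set.uIoc (0 : ℝ) (σ * w) →
      ‖(√σ : ℂ) * S σ N M τ - (√N : ℂ) * Φ σ w N τ‖ ^ 2 =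
        σ * ‖S σ N M τ‖ ^ 2 + N - 2 * (√σ * √N) * (S σ N M τ * conj (g σ N τ)).re := by
    filter_upwards [Measure.ae_ne volume (σ * w)] with τ hτ hmem
    rw [Set.uIoc_of_le L0] at hmem
    exact ioc τ ⟨hmem.1, lt_of_le_of_ne hmem.2 hτ⟩
  have i1 : IntervalIntegrable (fun τ => ‖(√σ : ℂ) * S σ N M τ - (√N : ℂ) * Φ σ w N τ‖ ^ 2)
      volume 0 (σ * w) :=
    (Continuous.intervalIntegrable (by fun_prop) _ _).congr_ae
      ((ae_restrict_iff' measurableSet_uIoc).2 (hae.mono fun τ h hm => (h hm).symm))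
  have i2 : IntervalIntegrable (fun τ => ‖(√σ : ℂ) * S σ N M τ - (√N : ℂ) * Φ σ w N τ‖ ^ 2)
      volume (σ * w) 1 :=
    ((by fun_prop : Continuous fun τ => σ * ‖S σ N M τ‖ ^ 2).intervalIntegrable _ _).congr
      fun τ hτ => by
        rw [Set.uIoc_of_le hσw.le] at hτ
        exact (out τ ⟨hτ.1.le, hτ.2⟩).symm
  have cI : ∫ τ in (0 : ℝ)..σ * w, S σ N M τ * conj (g σ N τ) =
      conj fc * ((a : ℂ) * ∑ i ∈ range M,
        (fresnel (a * (i : ℝ)) + fresnel (a * (w * N - i)))) := by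
    have : ∀ τ, S σ N M τ * conj (g σ N τ) = ∑ i ∈ range M, conj fc *
        (e (σ * (i : ℝ) ^ 2 / (2 * N) - (i : ℝ) * τ) * e ((N : ℝ) * τ ^ 2 / (2 * σ))) := by
      intro τ
      rw [g, map_mul, ← e_neg, neg_neg, S, sum_mul]
      exact sum_congr rfl fun i _ => by ring
    simp_rw [this]
    rw [intervalIntegral.integral_finsetSum
      (fun i _ => Continuous.intervalIntegrable (by unfold e; fun_prop) _ _), mul_sum, mul_sum]
    refine sum_congr rfl fun i _ => ?_
    rw [intervalIntegral.integral_const_mul, integral_cross hσ hN]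
  have hre : ∫ τ in (0 : ℝ)..σ * w, (S σ N M τ * conj (g σ N τ)).re =
      (∫ τ in (0 : ℝ)..σ * w, S σ N M τ * conj (g σ N τ)).re :=
    Complex.reCLM.intervalIntegral_comp_comm
      ((by fun_prop : Continuous fun τ => S σ N M τ * conj (g σ N τ)).intervalIntegrable _ _)
  rw [← intervalIntegral.integral_add_adjacent_intervals i1 i2,
    intervalIntegral.integral_congr_ae hae,
    intervalIntegral.integral_congr (g := fun τ => σ * ‖S σ N M τ‖ ^ 2) (fun τ hτ => out τ (by
      rwa [Set.uIcc_of_le hσw.le] at hτ))]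
  have cs : Continuous fun τ => σ * ‖S σ N M τ‖ ^ 2 := by fun_prop
  rw [intervalIntegral.integral_sub (Continuous.intervalIntegrable (by fun_prop) _ _)
      (Continuous.intervalIntegrable (by fun_prop) _ _),
    intervalIntegral.integral_add (cs.intervalIntegrable _ _) intervalIntegrable_const,
    intervalIntegral.integral_const, intervalIntegral.integral_const_mul (2 * (√σ * √N)),
    hre, cI, sub_zero, smul_eq_mul]
  have tot : (∫ τ in (0 : ℝ)..σ * w, σ * ‖S σ N M τ‖ ^ 2) +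
      ∫ τ in σ * w..1, σ * ‖S σ N M τ‖ ^ 2 = σ * M := by
    rw [intervalIntegral.integral_add_adjacent_intervals (cs.intervalIntegrable _ _)
      (cs.intervalIntegrable _ _), intervalIntegral.integral_const_mul, integral_norm_sq]
  -- the cross term
  set D : ℕ → ℂ := fun i => fresnel (a * (i : ℝ)) + fresnel (a * (w * N - i)) with hD
  have fc1 : conj fc * fc = 1 := by
    rw [mul_comm, Complex.mul_conj', norm_fc]; simp
  have hlow : (M : ℝ) - ∑ i ∈ range M, ‖D i - fc‖ ≤ (conj fc * ∑ i ∈ range M, D i).re := by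
    have : conj fc * ∑ i ∈ range M, D i = (M : ℂ) + ∑ i ∈ range M, conj fc * (D i - fc) := by
      simp [mul_sub, mul_sum, sum_sub_distrib, fc1]
    rw [this, Complex.add_re, Complex.natCast_re, Complex.re_sum, sub_eq_add_neg,
      ← sum_neg_distrib]
    refine add_le_add le_rfl (sum_le_sum fun i _ => ?_)
    have h := Complex.abs_re_le_norm (conj fc * (D i - fc))
    rw [norm_mul, Complex.norm_conj, norm_fc, one_mul] at h
    exact neg_le_of_abs_le h
  have hsum : ∑ i ∈ range M, ‖D i - fc‖ ≤ 6 * (d * N + 1 + w * N / (a * (d * N))) := by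
    have h1 : ∀ i ∈ range M, ‖D i - fc‖ ≤
        3 * (1 / (1 + a * (i : ℝ))) + 3 * (1 / (1 + a * ((M - 1 - i : ℕ) : ℝ))) := by
      intro i hi
      have hi' := mem_range.1 hi
      have hle : ((M - 1 - i : ℕ) : ℝ) ≤ w * N - i := by
        have : (((M - 1 - i) + i : ℕ) : ℝ) ≤ M := Nat.cast_le.2 (by omega)
        push_cast at this
        linarith
      have hnn : (0 : ℝ) ≤ w * N - i := le_trans (Nat.cast_nonneg _) hle
      refine (fresnel_pair_le (by positivity) (mul_nonneg a0.le hnn)).trans ?_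
      rw [mul_one_div, mul_one_div]
      refine add_le_add le_rfl ?_
      exact div_le_div_of_nonneg_left (by norm_num) (by positivity)
        (add_le_add le_rfl (mul_le_mul_of_nonneg_left hle a0.le))
    refine (sum_le_sum h1).trans ?_
    rw [sum_add_distrib, ← mul_sum, ← mul_sum,
      sum_range_reflect (fun i : ℕ => 1 / (1 + a * (i : ℝ))) M]
    have h2 := sum_tail_le a0 hd N M hN
    have h3 : (M : ℝ) / (a * (d * N)) ≤ w * N / (a * (d * N)) :=
      div_le_div_of_nonneg_right hM (by positivity)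
    linarith
  have key : √σ * √N * (conj fc * ((a : ℂ) * ∑ i ∈ range M, D i)).re =
      σ * (conj fc * ∑ i ∈ range M, D i).re := by
    rw [mul_left_comm, Complex.re_ofReal_mul, ← mul_assoc, eq1]
  have hb := mul_le_mul_of_nonneg_left hlow hσ.le
  have hb2 := mul_le_mul_of_nonneg_left hsum hσ.le
  have hb3 := mul_le_mul_of_nonneg_left hM'.le hσ.le
  nlinarith [key, tot, hb, hb2, hb3]

end PiecePf

open PiecePf in
/-- **K4.** The piece lemma. -/
theorem piece : PieceSpec := by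
  intro σ w ε hσ hw hσw hε
  obtain ⟨N0, hN0⟩ := exists_nat_ge (max (52 * σ / ε)
    ((48 * σ * w / (√σ * (ε / (48 * σ)) * ε)) ^ 2))
  refine ⟨N0 + 1, fun N hN => ⟨Φ σ w N, measurable_Φ σ w N, ?_, ?_⟩⟩
  · intro τ _
    rw [Φ]
    split_ifs
    · exact norm_g σ N τ
    · exact norm_zero
  · set d := ε / (48 * σ) with hd
    have d0 : 0 < d := by positivity
    have hNpos : 0 < N := by omega
    have hN' : (0 : ℝ) < N := Nat.cast_pos.2 hNpos
    have hcast : ((N0 : ℕ) : ℝ) ≤ N := Nat.cast_le.2 (by omega)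
    refine (main_bound hσ hw hσw d0 hNpos).trans ?_
    have b1 : 52 * σ ≤ ε * N := by
      have := ((le_max_left _ _).trans hN0).trans hcast
      rw [div_le_iff₀ hε] at this; linarith
    have b2 : 48 * σ * w / (√σ * d * ε) ≤ √N :=
      Real.le_sqrt_of_sq_le (((le_max_right _ _).trans hN0).trans hcast)
    have b3 : 12 * σ * (w * N / (√(σ / N) * (d * N))) ≤ ε * N / 4 := by
      rw [div_le_iff₀ (by positivity)] at b2
      rw [show 12 * σ * (w * N / (√(σ / N) * (d * N))) =
          (48 * σ * w) * (√N / (4 * (√σ * d))) by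
        rw [Real.sqrt_div hσ.le]; field_simp; norm_num]
      refine (mul_le_mul_of_nonneg_right b2 (by positivity)).trans (le_of_eq ?_)
      rw [show ε * (N : ℝ) / 4 = ε * (√N * √N) / 4 by rw [Real.mul_self_sqrt hN'.le]]
      field_simp
    have b4 : 12 * σ * (d * N) = ε * N / 4 := by rw [hd]; field_simp; norm_num
    nlinarith [b1, b3, b4]

end Vale.Agent.P130.Rank
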