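import Vale.Agent.P130.Koopman
import Vale.Agent.P130.Rank.Spec

/-!
The rank-one transformation of given stage data.
-/

open MeasureTheory Filter Set Finset

noncomputable section

namespace Vale.Agent.P130.Rank

open Tower

namespace Stages

lemma off_succ (S : Stages) (n j : ℕ) : S.off n (j + 1) = S.off n j + S.h n + S.s n j := by
  simp only [off, sum_range_succ]; ring

lemma off_last (S : Stages) (n : ℕ) : S.off n (S.m n) = S.h (n + 1) := (S.h_succ n).symm

lemma off_mono (S : Stages) (n : ℕ) : Monotone (S.off n) :=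
  monotone_nat_of_le_succ fun j => by rw [off_succ]; omega

lemma bdd (S : Stages) : BddAbove (Set.range fun n => (S.h n : ℝ) / ∏ k ∈ range n, (S.m k : ℝ)) := by
  set x : ℕ → ℝ := fun n => ((∑ j ∈ range (S.m n), S.s n j : ℕ) : ℝ) / (S.m n * S.h n : ℕ) with hx
  have hx0 : ∀ n, 0 ≤ x n := fun n => by positivity
  refine ⟨(S.h 0 : ℝ) * Real.exp (∑' n, x n), ?_⟩
  rintro - ⟨n, rfl⟩
  have h1 : ∀ n, (S.h n : ℝ) / ∏ k ∈ range n, (S.m k : ℝ) ≤
      (S.h 0 : ℝ) * Real.exp (∑ k ∈ range n, x k) := by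
    intro n
    induction n with
    | zero => simp
    | succ n ih =>
      have hm : (0 : ℝ) < S.m n := by have := S.two_le_m n; exact_mod_cast (by omega : 0 < S.m n)
      have hh : ∀ n, 0 < S.h n := by
        intro n
        induction n with
        | zero => have := S.two_le_h; omega
        | succ n ih =>
          rw [S.h_succ n]
          have := Nat.mul_pos (show 0 < S.m n by have := S.two_le_m n; omega) ih
          omega
      have hhr : (0 : ℝ) < S.h n := by exact_mod_cast hh n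
      have he : (S.h (n + 1) : ℝ) = S.m n * S.h n * (1 + x n) := by
        rw [hx, S.h_succ n]
        push_cast
        field_simp
      have hP : 0 < ∏ k ∈ range n, (S.m k : ℝ) :=
        prod_pos fun k _ => by have := S.two_le_m k; exact_mod_cast (by omega : 0 < S.m k)
      rw [prod_range_succ, he, sum_range_succ, Real.exp_add,
        show (S.m n : ℝ) * S.h n * (1 + x n) / ((∏ k ∈ range n, (S.m k : ℝ)) * S.m n) =
          (S.h n : ℝ) / (∏ k ∈ range n, (S.m k : ℝ)) * (1 + x n) by field_simp, ← mul_assoc]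
      refine mul_le_mul ih ?_ (by linarith [hx0 n]) (by positivity)
      linarith [Real.add_one_le_exp (x n)]
  refine (h1 n).trans (mul_le_mul_of_nonneg_left (Real.exp_le_exp.2 ?_) (Nat.cast_nonneg _))
  exact S.summable.sum_le_tsum _ fun i _ => hx0 i

/-- The tower schedule of stage data. -/
def sched (S : Stages) : Sched where
  h := S.h
  q := S.m
  a := S.off
  h_pos := by have := S.two_le_h; omega
  q_two := S.two_le_m
  gap n j _ := by rw [off_succ]; omega
  fit n j hj := by
    have := S.off_mono n (show j + 1 ≤ S.m n by omega)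
    rw [off_succ, off_last] at this
    omega
  bdd := S.bdd

end Stages

variable (P : Sched)

/-- Normalised functions on the levels of tower `n`. -/
def levFun (n : ℕ) : (Fin (P.h n) → ℂ) →ₗ[ℂ] Lp ℂ 2 Sched.μ :=
  ((√(P.w n))⁻¹ : ℂ) • (Fintype.linearCombination ℂ fun a => (Koopman.integrable_lev P n a).toLp)

lemma coeFn_levFun (n : ℕ) (Q : Fin (P.h n) → ℂ) :
    (levFun P n Q : ℝ → ℂ) =ᵐ[Sched.μ]
      fun x => ((√(P.w n))⁻¹ : ℂ) * ∑ a, Q a * (P.Lev n a).indicator (fun _ => (1 : ℂ)) x := by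
  simp only [levFun, LinearMap.smul_apply, Fintype.linearCombination_apply]
  filter_upwards [Lp.coeFn_smul ((√(P.w n))⁻¹ : ℂ)
      (∑ a, Q a • (Koopman.integrable_lev P n a).toLp),
    Lp.coeFn_finsetSum (Finset.univ : Finset (Fin (P.h n)))
      (fun a => Q a • (Koopman.integrable_lev P n a).toLp),
    eventually_all.2 fun a => Lp.coeFn_smul (Q a) ((Koopman.integrable_lev P n a).toLp),
    eventually_all.2 fun a => (Koopman.integrable_lev P n a).coeFn_toLp] with x h1 h2 h3 h4
  rw [h1, Pi.smul_apply, h2, smul_eq_mul, Finset.sum_apply]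
  congr 1
  exact sum_congr rfl fun a _ => by rw [h3 a, Pi.smul_apply, h4 a, smul_eq_mul]

lemma sum_indicator_of_mem {n : ℕ} (Q : Fin (P.h n) → ℂ) {x : ℝ} {a : Fin (P.h n)}
    (hx : x ∈ P.Lev n a) : ∑ b, Q b * (P.Lev n b).indicator (fun _ => (1 : ℂ)) x = Q a := by
  rw [sum_eq_single a (fun b _ hb => ?_) (by simp), Set.indicator_of_mem hx, mul_one]
  rw [Set.indicator_of_notMem (fun h => hb (P.lev_inj h hx)), mul_zero]

lemma sum_indicator_of_not {n : ℕ} (Q : Fin (P.h n) → ℂ) {x : ℝ}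
    (hx : ∀ a, x ∉ P.Lev n a) : ∑ b, Q b * (P.Lev n b).indicator (fun _ => (1 : ℂ)) x = 0 :=
  sum_eq_zero fun b _ => by rw [Set.indicator_of_notMem (hx b), mul_zero]

lemma inner_lev (n : ℕ) (a : Fin (P.h n)) (g : Lp ℂ 2 Sched.μ) :
    inner ℂ ((Koopman.integrable_lev P n a).toLp) g = ∫ x in P.Lev n a, (g : ℝ → ℂ) x ∂Sched.μ := by
  rw [Koopman.inner_eq_integral, ← integral_indicator (P.measurableSet_lev n a)]
  refine integral_congr_ae ?_
  filter_upwards [(Koopman.integrable_lev P n a).coeFn_toLp] with x hx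
  rw [hx]
  simp only [Set.indicator]
  split_ifs <;> simp

lemma norm_levFun (n : ℕ) (Q : Fin (P.h n) → ℂ) : ‖levFun P n Q‖ ^ 2 = ∑ a, ‖Q a‖ ^ 2 := by
  have hw := P.w_pos n
  have horth : ∀ a b, inner ℂ ((Koopman.integrable_lev P n a).toLp) ((Koopman.integrable_lev P n b).toLp) =
      if a = b then (P.w n : ℂ) else 0 := by
    intro a b
    rw [inner_lev, setIntegral_congr_ae (P.measurableSet_lev n a)
      ((Koopman.integrable_lev P n b).coeFn_toLp.mono fun x hx _ => hx)]
    rw [setIntegral_indicator (P.measurableSet_lev n b), setIntegral_const]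
    split_ifs with h
    · subst h
      simp [Measure.real, P.μ_lev, ENNReal.toReal_ofReal hw.le]
    · simp [(P.disjoint_lev n h).inter_eq]
  have e : inner ℂ (levFun P n Q) (levFun P n Q) = ((∑ a, ‖Q a‖ ^ 2 : ℝ) : ℂ) := by
    simp only [levFun, LinearMap.smul_apply, Fintype.linearCombination_apply, inner_smul_left,
      inner_smul_right, inner_sum, sum_inner, horth, mul_ite, mul_zero, sum_ite_eq', Finset.mem_univ,
      if_true, map_inv₀, Complex.conj_ofReal]
    push_cast
    rw [mul_sum]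
    refine Finset.sum_congr rfl ?_
    intro a _
    rw [← Complex.mul_conj']
    have h2 : ((√(P.w n) : ℂ)) * (√(P.w n) : ℂ) = (P.w n : ℂ) := by
      rw [← Complex.ofReal_mul, Real.mul_self_sqrt hw.le]
    have : (√(P.w n) : ℂ) ≠ 0 := by exact_mod_cast (Real.sqrt_pos.2 hw).ne'
    rw [← h2]
    field_simp
  rw [← inner_self_eq_norm_sq (𝕜 := ℂ) (levFun P n Q), e]
  exact Complex.ofReal_re _

lemma integral_levFun (n : ℕ) (Q : Fin (P.h n) → ℂ) :
    ∫ x, (levFun P n Q : ℝ → ℂ) x ∂Sched.μ = (√(P.w n) : ℂ) * ∑ a, Q a := by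
  rw [integral_congr_ae (coeFn_levFun P n Q), integral_const_mul, integral_finsetSum _ fun a _ =>
    ((Koopman.integrable_lev P n a).integrable one_le_two).const_mul _]
  simp only [integral_const_mul, integral_indicator_const _ (P.measurableSet_lev n _),
    Measure.real, P.μ_lev, ENNReal.toReal_ofReal (P.w_pos n).le, Complex.real_smul, mul_one]
  rw [mul_sum, mul_sum]
  refine sum_congr rfl fun a _ => ?_
  have h2 : ((√(P.w n) : ℂ)) * (√(P.w n) : ℂ) = (P.w n : ℂ) := by
    rw [← Complex.ofReal_mul, Real.mul_self_sqrt (P.w_pos n).le]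
  have : (√(P.w n) : ℂ) ≠ 0 := by exact_mod_cast (Real.sqrt_pos.2 (P.w_pos n)).ne'
  rw [← h2]
  field_simp

lemma lift_levFun (n : ℕ) (Q : Fin (P.h n) → ℂ) :
    levFun P (n + 1) (fun p => (∑ j ∈ range (P.q n), ∑ a : Fin (P.h n),
      if P.a n j + (a : ℕ) = (p : ℕ) then Q a else 0) / (√(P.q n) : ℂ)) = levFun P n Q := by
  refine Lp.ext ((coeFn_levFun P (n + 1) _).trans (EventuallyEq.trans ?_ (coeFn_levFun P n Q).symm))
  refine Eventually.of_forall fun x => ?_
  have hs : √(P.w n) = √(P.w (n + 1)) * √((P.q n : ℕ) : ℝ) := by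
    rw [← Real.sqrt_mul (P.w_pos (n + 1)).le, P.w_succ]
  show _ * _ = _ * _
  rw [hs, Complex.ofReal_mul, mul_inv]
  have e1 : ∀ p : Fin (P.h (n + 1)), ∀ z : ℂ, z / (√((P.q n : ℕ) : ℝ) : ℂ) *
      (P.Lev (n + 1) p).indicator (fun _ => (1 : ℂ)) x =
      (√((P.q n : ℕ) : ℝ) : ℂ)⁻¹ * (z * (P.Lev (n + 1) p).indicator (fun _ => (1 : ℂ)) x) :=
    fun p z => by ring
  erw [sum_congr rfl fun p _ => e1 p _]
  rw [← mul_sum, ← mul_assoc]
  congr 1
  simp only [sum_mul]
  rw [sum_comm, ← Fin.sum_univ_eq_sum_range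
    (fun j => ∑ p : Fin (P.h (n + 1)), ∑ a : Fin (P.h n),
      (if P.a n j + (a : ℕ) = (p : ℕ) then Q a else 0) *
        (P.Lev (n + 1) p).indicator (fun _ => (1 : ℂ)) x)]
  have e2 : ∀ j : Fin (P.q n), ∑ p : Fin (P.h (n + 1)), ∑ a : Fin (P.h n),
      (if P.a n j + (a : ℕ) = (p : ℕ) then Q a else 0) *
        (P.Lev (n + 1) p).indicator (fun _ => (1 : ℂ)) x = ∑ a : Fin (P.h n), Q a *
        (P.Lev (n + 1) ⟨P.a n j + a, P.copy_lt a.2 j.2⟩).indicator (fun _ => (1 : ℂ)) x := by
    intro j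
    rw [sum_comm]
    refine sum_congr rfl fun a _ => ?_
    rw [sum_eq_single (⟨P.a n j + a, P.copy_lt a.2 j.2⟩ : Fin (P.h (n + 1)))
      (fun b _ hb => ?_) (by simp)]
    · exact congrArg (· * _) (if_pos rfl)
    · rw [if_neg (fun h => hb (Fin.ext h.symm)), zero_mul]
  rw [sum_congr rfl fun j _ => e2 j, sum_comm]
  refine sum_congr rfl fun a _ => ?_
  rw [← mul_sum]
  congr 1
  rw [Koopman.lev_eq_iUnion P n a, Finset.indicator_biUnion_apply]
  intro i _ k _ hik
  refine P.disjoint_lev _ fun e => hik ?_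
  exact Fin.ext (P.copy_inj a.2 a.2 i.2 k.2 (congrArg Fin.val e)).2

lemma shift_levFun (n : ℕ) (Q : Fin (P.h n) → ℂ)
    (hQ : ∀ a : Fin (P.h n), (a : ℕ) + 1 = P.h n → Q a = 0) :
    (fun x => (levFun P n (shift Q) : ℝ → ℂ) x) =ᵐ[Sched.μ]
      fun x => (levFun P n Q : ℝ → ℂ) (P.T.symm x) := by
  refine (coeFn_levFun P n _).trans (EventuallyEq.trans ?_
    ((P.measurePreserving_step (-1)).quasiMeasurePreserving.ae_eq (coeFn_levFun P n Q)).symm)
  filter_upwards [P.ae_good] with x hx
  show _ = ((√(P.w n))⁻¹ : ℂ) * ∑ a, Q a * (P.Lev n a).indicator (fun _ => (1 : ℂ)) (P.step (-1) x)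
  congr 1
  by_cases hup : ∃ p : Fin (P.h n), 0 < (p : ℕ) ∧ x ∈ P.Lev n p
  · obtain ⟨p, hp, hxp⟩ := hup
    have h1 : (p : ℤ) + -1 < P.h n := by have := p.2; omega
    have hm := P.mem_lev_step hx hxp (z := -1) (by omega) h1
    rw [sum_indicator_of_mem P _ hxp, sum_indicator_of_mem P _ hm]
    simp only [shift]
    rw [dif_neg (by omega)]
    exact congrArg Q (Fin.ext (by simp only; omega))
  · have l1 : ∑ b, shift Q b * (P.Lev n b).indicator (fun _ => (1 : ℂ)) x = 0 := by
      refine sum_eq_zero fun b _ => ?_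
      rcases Nat.eq_zero_or_pos (b : ℕ) with hb | hb
      · simp only [shift]; rw [dif_pos hb, zero_mul]
      · rw [Set.indicator_of_notMem (fun h => hup ⟨b, hb, h⟩), mul_zero]
    have l2 : ∑ a, Q a * (P.Lev n a).indicator (fun _ => (1 : ℂ)) (P.step (-1) x) = 0 := by
      refine sum_eq_zero fun a _ => ?_
      by_cases ha : P.step (-1) x ∈ P.Lev n a
      · rcases eq_or_ne ((a : ℕ) + 1) (P.h n) with hl | hl
        · rw [hQ a hl, zero_mul]
        · exfalso
          have hm := P.mem_lev_step (P.step_mem_good hx (-1)) ha (z := 1) (by omega)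
            (by have := a.2; omega)
          rw [P.step_step, show (-1 : ℤ) + 1 = 0 by rfl, P.step_zero] at hm
          exact hup ⟨_, by simp only; omega, hm⟩
      · rw [Set.indicator_of_notMem ha, mul_zero]
    exact l1.trans l2.symm

lemma dense_levFun (g : Lp ℂ 2 Sched.μ) (ε : ℝ) (hε : 0 < ε) :
    ∃ n Q, ‖levFun P n Q - g‖ < ε := by
  set M : ℕ → Submodule ℂ (Lp ℂ 2 Sched.μ) := fun n =>
    Submodule.span ℂ (Set.range fun a => (Koopman.integrable_lev P n a).toLp) with hM
  have hMrange : ∀ n, M n ≤ LinearMap.range (levFun P n) := by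
    intro n
    rw [hM, Submodule.span_le]
    rintro - ⟨a, rfl⟩
    refine ⟨(√(P.w n) : ℂ) • Pi.single a 1, ?_⟩
    rw [map_smul]
    simp only [levFun, LinearMap.smul_apply, Fintype.linearCombination_apply_single, one_smul,
      smul_smul]
    rw [mul_inv_cancel₀ (by exact_mod_cast (Real.sqrt_pos.2 (P.w_pos n)).ne'), one_smul]
  have hmono : Monotone M := by
    refine monotone_nat_of_le_succ fun n => ?_
    rw [hM, Submodule.span_le]
    rintro - ⟨a, rfl⟩
    have : (Koopman.integrable_lev P n a).toLp =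
        ∑ j : Fin (P.q n), (Koopman.integrable_lev P (n + 1) ⟨P.a n j + a, P.copy_lt a.2 j.2⟩).toLp := by
      refine Lp.ext ((Koopman.integrable_lev P n a).coeFn_toLp.trans
        (EventuallyEq.trans ?_ (Lp.coeFn_finsetSum _ _).symm))
      filter_upwards [eventually_all.2 fun j : Fin (P.q n) =>
        (Koopman.integrable_lev P (n + 1) ⟨P.a n j + a, P.copy_lt a.2 j.2⟩).coeFn_toLp] with x hx
      simp only [Finset.sum_apply, hx]
      rw [Koopman.lev_eq_iUnion P n a, Finset.indicator_biUnion_apply]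
      intro i _ k _ hik
      refine P.disjoint_lev _ fun e => hik ?_
      exact Fin.ext (P.copy_inj a.2 a.2 i.2 k.2 (congrArg Fin.val e)).2
    show (Koopman.integrable_lev P n a).toLp ∈ Submodule.span ℂ _
    rw [this]
    exact sum_mem fun j _ => Submodule.subset_span ⟨_, rfl⟩
  have htop : (⨆ n, M n).topologicalClosure = ⊤ := by
    rw [Submodule.topologicalClosure_eq_top_iff, Submodule.eq_bot_iff]
    intro v hv
    refine Lp.ext (EventuallyEq.trans ?_ (Lp.coeFn_zero _ _ _).symm)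
    refine P.integral_lev_eq_zero ((Lp.memLp v).integrable one_le_two) fun n a => ?_
    rw [← inner_lev]
    exact (Submodule.mem_orthogonal _ _).1 hv _
      (Submodule.mem_iSup_of_mem n (Submodule.subset_span ⟨a, rfl⟩))
  have hg : g ∈ closure ((⨆ n, M n : Submodule ℂ (Lp ℂ 2 Sched.μ)) : Set (Lp ℂ 2 Sched.μ)) := by
    rw [← Submodule.topologicalClosure_coe, htop]; trivial
  obtain ⟨y, hy, hd⟩ := Metric.mem_closure_iff.1 hg ε hε
  obtain ⟨n, hn⟩ := (Submodule.mem_iSup_of_directed M hmono.directed_le).1 hy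
  obtain ⟨Q, rfl⟩ := hMrange n hn
  exact ⟨n, Q, by rwa [dist_comm, dist_eq_norm] at hd⟩

/-- The transformation of stage data. -/
theorem rankOne : RankOneSpec := fun S =>
  ⟨Sched.μ, S.sched.T, levFun S.sched, inferInstance, inferInstance,
    S.sched.measurePreserving_T, norm_levFun S.sched,
    fun n => ⟨(√(S.sched.w n) : ℂ),
      by exact_mod_cast (Real.sqrt_pos.2 (S.sched.w_pos n)).ne', integral_levFun S.sched n⟩,
    lift_levFun S.sched, shift_levFun S.sched, dense_levFun S.sched⟩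

end Vale.Agent.P130.Rank
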