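import Vale.Agent.P130.Rank.Spec

/-!
Phases chosen one block after the other keep bounded periodic functions small on average.
-/

open Real Finset MeasureTheory Module

namespace Vale.Agent.P130.Rank

lemma measurableSet_cube (D : ℕ) : MeasurableSet (cube D) :=
  MeasurableSet.univ_pi fun _ => measurableSet_Ico

lemma isProbabilityMeasure_cube (D : ℕ) :
    IsProbabilityMeasure (volume.restrict (cube D)) :=
  ⟨by rw [Measure.restrict_apply_univ, cube, volume_pi_pi]; simp [Real.volume_Ico]⟩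

/-- The integral of a periodic function over the unit cube is translation invariant. -/
lemma setIntegral_cube_add {D : ℕ} (g : (Fin D → ℝ) → ℝ)
    (hg : ∀ θ (z : Fin D → ℤ), g (fun i => θ i + (z i : ℝ)) = g θ) (a : Fin D → ℝ) :
    ∫ θ in cube D, g (θ + a) = ∫ θ in cube D, g θ := by
  set b := Pi.basisFun ℝ (Fin D) with hb
  have hF : cube D = ZSpan.fundamentalDomain b := (ZSpan.fundamentalDomain_pi_basisFun).symm
  have hD := ZSpan.isAddFundamentalDomain b (volume : Measure (Fin D → ℝ))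
  have hmp := measurePreserving_add_right (volume : Measure (Fin D → ℝ)) a
  have hD' := hD.preimage_of_equiv hmp.quasiMeasurePreserving Function.bijective_id
    (fun v x => add_assoc (v : Fin D → ℝ) x a)
  have hinv : ∀ (v : Submodule.span ℤ (Set.range b)) (θ : Fin D → ℝ),
      g ((v +ᵥ θ : Fin D → ℝ) + a) = g (θ + a) := by
    intro v θ
    have h := (b.mem_span_iff_repr_mem ℤ (v : Fin D → ℝ)).1 v.2
    choose z hz using h
    have hv : ∀ i, (v : Fin D → ℝ) i = (z i : ℝ) := fun i => by
      rw [← show ((algebraMap ℤ ℝ) (z i) : ℝ) = (z i : ℝ) by simp, hz i]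
      simp [b]
    rw [← hg (θ + a) z]
    congr 1
    funext i
    rw [Submodule.vadd_def, vadd_eq_add, Pi.add_apply, Pi.add_apply, hv, Pi.add_apply]
    ring
  have : VAddInvariantMeasure (Submodule.span ℤ (Set.range b)) (Fin D → ℝ) volume :=
    (inferInstance : VAddInvariantMeasure (Submodule.span ℤ (Set.range b)).toAddSubgroup
      (Fin D → ℝ) volume)
  rw [hF, hD.setIntegral_eq hD' (f := fun θ => g (θ + a)) hinv]
  exact hmp.setIntegral_preimage_emb (measurableEmbedding_addRight a) g _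

/-- Choosing one variable after the other keeps sums of squares of partial sums small. -/
lemma exists_greedy {L : ℕ} {Φ : Type*} [Nonempty Φ] (M : ℝ) :
    ∀ (n : ℕ) (Y : Fin n → Fin L → Φ → ℝ),
      (∀ (S : Fin L → ℝ) i, ∃ p, ∑ l, (S l + Y i l p) ^ 2 ≤ (∑ l, S l ^ 2) + M) →
      ∃ φ : Fin n → Φ, ∑ l, (∑ i, Y i l (φ i)) ^ 2 ≤ n * M := by
  intro n
  induction n with
  | zero => intro Y _; exact ⟨fun i => i.elim0, by simp⟩
  | succ n ih =>
    intro Y hstep
    obtain ⟨φ, hφ⟩ := ih (fun i => Y i.castSucc) fun S i => hstep S i.castSucc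
    obtain ⟨p, hp⟩ := hstep (fun l => ∑ i : Fin n, Y i.castSucc l (φ i)) (Fin.last n)
    refine ⟨Fin.snoc φ p, ?_⟩
    simp only [Fin.sum_univ_castSucc, Fin.snoc_castSucc, Fin.snoc_last]
    push_cast
    linarith

theorem shiftSpec : ShiftSpec := by
  intro D L B ε hε hB
  refine ⟨⌈(L : ℝ) * B ^ 4 / ε ^ 2⌉₊, fun Nb hNb len x u hum hub hup => ?_⟩
  have := isProbabilityMeasure_cube D
  set μ := volume.restrict (cube D) with hμ
  set I : Fin L → ℝ := fun l => ∫ θ, ‖u l θ‖ ^ 2 ∂μ with hI
  set Y : Fin Nb → Fin L → (Fin D → ℝ) → ℝ :=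
    fun i l p => (∑ j, ‖u l (x i j + p)‖ ^ 2) - len * I l with hY
  set K : ℝ := len * B ^ 2 with hK
  have hsq : ∀ l θ, ‖u l θ‖ ^ 2 ≤ B ^ 2 := fun l θ => pow_le_pow_left₀ (norm_nonneg _) (hub l θ) 2
  have hI0 : ∀ l, 0 ≤ I l ∧ I l ≤ B ^ 2 := by
    intro l
    refine ⟨integral_nonneg fun θ => by positivity, ?_⟩
    refine (integral_mono_of_nonneg (ae_of_all _ fun θ => by positivity) (integrable_const _)
      (ae_of_all _ (hsq l))).trans_eq ?_
    simp
  have hYm : ∀ i l, Measurable (Y i l) := fun i l => by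
    refine (Finset.measurable_sum _ fun j _ => ?_).sub_const _
    exact ((hum l).comp (measurable_const_add _)).norm.pow_const 2
  have hYb : ∀ i l p, |Y i l p| ≤ K := by
    intro i l p
    have h1 : (∑ j, ‖u l (x i j + p)‖ ^ 2) ≤ K := by
      refine (Finset.sum_le_sum fun j _ => hsq l _).trans_eq ?_
      simp [hK]
    have h2 : 0 ≤ ∑ j, ‖u l (x i j + p)‖ ^ 2 := sum_nonneg fun j _ => by positivity
    have h3 : (len : ℝ) * I l ≤ K := mul_le_mul_of_nonneg_left (hI0 l).2 (by positivity)
    have h4 : 0 ≤ (len : ℝ) * I l := mul_nonneg (by positivity) (hI0 l).1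
    rw [abs_le, hY]
    constructor <;> linarith
  have hYi : ∀ i l, Integrable (Y i l) μ := fun i l =>
    Integrable.of_bound (hYm i l).aestronglyMeasurable K (ae_of_all _ (hYb i l))
  have hY2i : ∀ i l, Integrable (fun p => Y i l p ^ 2) μ := fun i l =>
    Integrable.of_bound ((hYm i l).pow_const 2).aestronglyMeasurable (K ^ 2)
      (ae_of_all _ fun p => by
        rw [Real.norm_eq_abs, abs_pow]; exact pow_le_pow_left₀ (abs_nonneg _) (hYb i l p) 2)
  have hsi : ∀ i l j, Integrable (fun p => ‖u l (x i j + p)‖ ^ 2) μ := fun i l j =>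
    Integrable.of_bound
      (((hum l).comp (measurable_const_add _)).norm.pow_const 2).aestronglyMeasurable (B ^ 2)
      (ae_of_all _ fun p => by rw [Real.norm_eq_abs, abs_of_nonneg (by positivity)]; exact hsq l _)
  have hmean : ∀ i l, ∫ p, Y i l p ∂μ = 0 := by
    intro i l
    rw [hY, integral_sub (integrable_finsetSum _ fun j _ => hsi i l j) (integrable_const _),
      integral_finsetSum _ fun j _ => hsi i l j]
    have h : ∀ j, ∫ p, ‖u l (x i j + p)‖ ^ 2 ∂μ = I l := by
      intro j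
      simp only [hI, hμ, add_comm (x i j)]
      exact setIntegral_cube_add (fun θ => ‖u l θ‖ ^ 2) (fun θ z => by simp [hup]) (x i j)
    simp [h]
  have hstep : ∀ (S : Fin L → ℝ) i, ∃ p,
      ∑ l, (S l + Y i l p) ^ 2 ≤ (∑ l, S l ^ 2) + L * K ^ 2 := by
    intro S i
    have hint : Integrable (fun p => ∑ l, (S l + Y i l p) ^ 2) μ := by
      refine integrable_finsetSum _ fun l _ => ?_
      simp only [add_sq]
      exact ((integrable_const _).add ((hYi i l).const_mul _)).add (hY2i i l)
    obtain ⟨p, hp⟩ := exists_le_integral hint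
    refine ⟨p, hp.trans ?_⟩
    rw [integral_finsetSum _ fun l _ => by
      simp only [add_sq]
      exact ((integrable_const _).add ((hYi i l).const_mul _)).add (hY2i i l)]
    have hone : ∀ l, ∫ p, (S l + Y i l p) ^ 2 ∂μ ≤ S l ^ 2 + K ^ 2 := by
      intro l
      simp only [add_sq]
      have hadd : Integrable (fun p => S l ^ 2 + 2 * S l * Y i l p) μ :=
        (integrable_const _).add ((hYi i l).const_mul _)
      rw [integral_add hadd (hY2i i l),
        integral_add (integrable_const _) ((hYi i l).const_mul _), integral_const_mul, hmean,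
        mul_zero, add_zero]
      refine add_le_add (le_of_eq (by simp)) ((integral_mono (hY2i i l) (integrable_const _)
        fun p => ?_).trans_eq (by simp : ∫ _ : Fin D → ℝ, K ^ 2 ∂μ = K ^ 2))
      rw [← sq_abs]
      exact pow_le_pow_left₀ (abs_nonneg _) (hYb i l p) 2
    refine (Finset.sum_le_sum fun l _ => hone l).trans_eq ?_
    simp [sum_add_distrib]
  obtain ⟨φ, hφ⟩ := exists_greedy (L * K ^ 2) Nb Y hstep
  refine ⟨φ, fun l => ?_⟩
  have h1 : (∑ i, Y i l (φ i)) ^ 2 ≤ ((Nb : ℝ) * len * ε) ^ 2 := by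
    refine ((single_le_sum (f := fun l => (∑ i, Y i l (φ i)) ^ 2) (fun _ _ => sq_nonneg _)
      (mem_univ l)).trans hφ).trans ?_
    have h2 : (L : ℝ) * B ^ 4 ≤ Nb * ε ^ 2 :=
      (div_le_iff₀ (by positivity)).1 ((Nat.le_ceil _).trans (Nat.cast_le.2 hNb))
    nlinarith [mul_le_mul_of_nonneg_left h2 (show (0 : ℝ) ≤ Nb * len ^ 2 by positivity)]
  have h3 := le_of_abs_le (abs_le_of_sq_le_sq h1 (by positivity))
  have h4 : ∑ i, Y i l (φ i) =
      (∑ i, ∑ j, ‖u l (x i j + φ i)‖ ^ 2) - (Nb : ℝ) * len * I l := by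
    simp [hY, sum_sub_distrib, mul_assoc]
  rw [h4] at h3
  rw [mul_add]
  linarith

end Vale.Agent.P130.Rank
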