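import Vale.Agent.P130.Rank.RankOne
import Vale.Agent.P130.Rank.Simple.Main
import Vale.Agent.P130.Rank.FlatGraph.Estimate
import Vale.Agent.P130.Rank.Label
import Vale.Agent.P130.Rank.Shift
import Vale.Agent.P130.Rank.Piece
import Vale.Agent.P130.Rank.LabelTiling
import Vale.Agent.P130.Rank.GoodStages
import Vale.Agent.P130.Rank.FlatGraph.Cells
import Vale.Agent.P110.Exist.Arith
import Vale.Agent.P110.Exist.Gauss

/-!
The reduction of the final statement to waves, cells and stages.
-/

namespace Vale.Agent.P130.Rank

/-- Simple Lebesgue spectrum from flat graphs. -/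
theorem simpleLebesgue_of_goodStages (hS : GoodStagesSpec) : SimpleLebesgueSpec :=
  Simple.simple_lebesgue hS rankOne

/-- Simple Lebesgue spectrum from waves. -/
theorem simpleLebesgue_of_wave (hW : GraphWaveSpec) : SimpleLebesgueSpec :=
  simpleLebesgue_of_goodStages (goodStages (FlatGraph.flatGraph_of_cells hW labelSpec
    (FlatGraph.cells labelTiling Vale.Agent.P110.Exist.arithSpec Vale.Agent.P110.Exist.gaussSpec)
    shiftSpec piece))

end Vale.Agent.P130.Rank
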